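import Vale.Agent.P235.Cuts
import Mathlib.Tactic.Linarith
import Mathlib.Tactic.Positivity

/-!
Truncation of an `ℓ₁` metric at a scale varying from point to point: given `f : W → ℓ₁` and a
positive function `a`, the metric `min (‖f u - f v‖) (a u + a v)` embeds into `ℓ₁` with
constant loss as soon as the two values of `a` are close.
-/

namespace Vale.Agent.P235

open Finset

/-- tent function at scale `2 ^ i` -/
noncomputable def tent (i : ℤ) (t : ℝ) : ℝ :=
  max 0 (min ((2:ℝ) ^ i) (min (2 * t - (2:ℝ) ^ i) (4 * (2:ℝ) ^ i - t)))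

lemma tent_nonneg (i : ℤ) (t : ℝ) : 0 ≤ tent i t := le_max_left _ _

lemma tent_le (i : ℤ) (t : ℝ) : tent i t ≤ (2:ℝ) ^ i :=
  max_le (zpow_nonneg (by norm_num) i) (min_le_left _ _)

lemma tent_lip (i : ℤ) (s t : ℝ) : |tent i s - tent i t| ≤ 2 * |s - t| := by
  unfold tent
  refine (abs_max_sub_max_le_max _ _ _ _).trans (max_le (by simp) ?_)
  refine (abs_min_sub_min_le_max _ _ _ _).trans (max_le (by simp) ?_)
  refine (abs_min_sub_min_le_max _ _ _ _).trans (max_le ?_ ?_)
  · rw [show 2 * s - (2:ℝ) ^ i - (2 * t - (2:ℝ) ^ i) = 2 * (s - t) by ring, abs_mul]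
    norm_num
  · rw [show 4 * (2:ℝ) ^ i - s - (4 * (2:ℝ) ^ i - t) = -(s - t) by ring, abs_neg]
    linarith [abs_nonneg (s - t)]

lemma tent_log {t : ℝ} (ht : 0 < t) :
    tent (Int.log 2 t) t = (2:ℝ) ^ (Int.log 2 t) := by
  have h1 : (2:ℝ) ^ (Int.log 2 t) ≤ t := by
    have := Int.zpow_log_le_self (b := 2) (by norm_num) ht
    exact_mod_cast this
  have h2 : t < (2:ℝ) ^ (Int.log 2 t) * 2 := by
    have := Int.lt_zpow_succ_log_self (b := 2) (by norm_num) t
    rw [← zpow_add_one₀ (by norm_num : (2:ℝ) ≠ 0)]
    exact_mod_cast this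
  set r := (2:ℝ) ^ (Int.log 2 t)
  have hr : 0 < r := zpow_pos (by norm_num) _
  show max 0 (min r (min (2 * t - r) (4 * r - t))) = r
  rw [min_eq_left (le_min (by linarith) (by linarith)), max_eq_right hr.le]

/-- the scales at which `t` is active -/
noncomputable def active (t : ℝ) : Finset ℤ :=
  {Int.log 2 t - 1, Int.log 2 t, Int.log 2 t + 1}

lemma card_active (t : ℝ) : (active t).card ≤ 3 := card_le_three

lemma tent_eq_zero {i : ℤ} {t : ℝ} (ht : 0 < t) (hi : i ∉ active t) : tent i t = 0 := by
  have h1 : (2:ℝ) ^ (Int.log 2 t) ≤ t := by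
    have := Int.zpow_log_le_self (b := 2) (by norm_num) ht
    exact_mod_cast this
  have h2 : t < (2:ℝ) ^ (Int.log 2 t + 1) := by
    have := Int.lt_zpow_succ_log_self (b := 2) (by norm_num) t
    exact_mod_cast this
  simp only [active, Finset.mem_insert, Finset.mem_singleton, not_or] at hi
  unfold tent
  apply max_eq_left
  rcases lt_trichotomy i (Int.log 2 t) with h | h | h
  · have h3 : (2:ℝ) ^ (i + 2) ≤ (2:ℝ) ^ (Int.log 2 t) :=
      zpow_le_zpow_right₀ (by norm_num) (by omega)
    rw [zpow_add₀ (by norm_num : (2:ℝ) ≠ 0)] at h3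
    norm_num at h3
    exact (min_le_right _ _).trans ((min_le_right _ _).trans (by linarith))
  · exact absurd h hi.2.1
  · have h3 : (2:ℝ) ^ (Int.log 2 t + 2) ≤ (2:ℝ) ^ i :=
      zpow_le_zpow_right₀ (by norm_num) (by omega)
    rw [show Int.log 2 t + 2 = Int.log 2 t + 1 + 1 by ring,
      zpow_add_one₀ (by norm_num : (2:ℝ) ≠ 0)] at h3
    exact (min_le_right _ _).trans ((min_le_left _ _).trans (by linarith))

lemma sum_tent_le (I : Finset ℤ) {t : ℝ} (ht : 0 < t) : ∑ i ∈ I, tent i t ≤ 6 * t := by
  have h2 : ∀ i, tent i t ≤ 2 * t := fun i => by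
    unfold tent
    refine max_le (by linarith) ?_
    refine (min_le_right _ _).trans ((min_le_left _ _).trans ?_)
    linarith [zpow_nonneg (show (0:ℝ) ≤ 2 by norm_num) i]
  calc ∑ i ∈ I, tent i t = ∑ i ∈ I with i ∈ active t, tent i t := by
        refine (sum_subset (filter_subset _ _) fun i hi hn => ?_).symm
        exact tent_eq_zero ht fun h => hn (mem_filter.2 ⟨hi, h⟩)
    _ ≤ (I.filter fun i => i ∈ active t).card • (2 * t) := sum_le_card_nsmul _ _ _ fun i _ => h2 i
    _ ≤ 6 * t := by
        have : (I.filter fun i => i ∈ active t).card ≤ 3 :=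
          (card_le_card fun i hi => (mem_filter.1 hi).2).trans (card_active t)
        have : ((I.filter fun i => i ∈ active t).card : ℝ) ≤ 3 := by exact_mod_cast this
        rw [nsmul_eq_mul]; nlinarith

lemma one_sub_exp_le (x : ℝ) : 1 - Real.exp (-x) ≤ x := by
  have := Real.add_one_le_exp (-x); linarith

lemma min_le_two_mul_one_sub_exp {x : ℝ} (hx : 0 ≤ x) : min x 1 ≤ 2 * (1 - Real.exp (-x)) := by
  have h1 : Real.exp (-x) ≤ 1 / (1 + x) := by
    rw [Real.exp_neg, ← one_div]
    exact one_div_le_one_div_of_le (by linarith) (by linarith [Real.add_one_le_exp x])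
  rw [le_div_iff₀ (by linarith)] at h1
  rcases le_total x 1 with h | h
  · rw [min_eq_left h]; nlinarith [Real.exp_pos (-x)]
  · rw [min_eq_right h]; nlinarith [Real.exp_pos (-x)]

/-- The variable-scale truncation. -/
lemma exists_scaled {W : Type} [Fintype W] {J : Type} [Fintype J] (E : J → Set W)
    (wt : J → ℝ) (hwt : ∀ j, 0 ≤ wt j) (a : W → ℝ) (ha : ∀ u, 0 < a u) :
    ∃ (K : Type) (_ : Fintype K) (Φ : W → K → ℝ),
      (∀ u, ∑ k, |Φ u k| ≤ 6 * a u) ∧
      (∀ u v, ∑ k, |Φ u k - Φ v k| ≤ 12 * |a u - a v| + 6 * ∑ j, wt j * sep (E j) u v) ∧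
      (∀ u v, min (∑ j, wt j * sep (E j) u v) (a u) / 8 ≤ ∑ k, |Φ u k - Φ v k|) := by
  classical
  let I : Finset ℤ := Finset.univ.image fun u => Int.log 2 (a u)
  have hr : ∀ i : ℤ, (0:ℝ) < 2 ^ i := fun i => zpow_pos (by norm_num) i
  have h := fun i : ℤ => exists_trunc E wt hwt (hr i)
  choose K hK U hU hUD using h
  refine ⟨Σ i : I, K i.1, inferInstance, fun u p => tent p.1.1 (a u) * U p.1.1 u p.2, ?_, ?_, ?_⟩
  · intro u
    rw [Fintype.sum_sigma]
    simp only [abs_mul, ← mul_sum, hU, mul_one, abs_of_nonneg (tent_nonneg _ _)]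
    rw [Finset.sum_coe_sort I (fun i => tent i (a u))]
    exact sum_tent_le I (ha u)
  · intro u v
    set D := ∑ j, wt j * sep (E j) u v
    have hD : 0 ≤ D := sum_nonneg fun j _ => mul_nonneg (hwt j) (sep_nonneg _ _ _)
    let S : Finset ℤ := active (a u) ∪ active (a v)
    have hb : ∀ i : ℤ, ∑ k, |tent i (a u) * U i u k - tent i (a v) * U i v k|
        ≤ (if i ∈ S then 2 * |a u - a v| else 0) + (if i ∈ active (a u) then 2 * D else 0) := by
      intro i
      calc ∑ k, |tent i (a u) * U i u k - tent i (a v) * U i v k|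
          ≤ ∑ k, (|tent i (a u) - tent i (a v)| * |U i v k|
              + tent i (a u) * |U i u k - U i v k|) := by
            refine sum_le_sum fun k _ => ?_
            rw [← abs_mul]
            have : tent i (a u) * |U i u k - U i v k| = |tent i (a u) * (U i u k - U i v k)| := by
              rw [abs_mul, abs_of_nonneg (tent_nonneg _ _)]
            rw [this]
            refine le_trans (le_of_eq ?_) (abs_add_le _ _)
            congr 1; ring
        _ = |tent i (a u) - tent i (a v)|
              + tent i (a u) * (1 - Real.exp (-(2 * D / 2 ^ i))) := by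
            rw [sum_add_distrib, ← mul_sum, ← mul_sum, hU, hUD, mul_one]
        _ ≤ _ := by
            refine add_le_add ?_ ?_
            · by_cases hi : i ∈ S
              · rw [if_pos hi]; exact tent_lip _ _ _
              · rw [if_neg hi]
                simp only [S, mem_union, not_or] at hi
                simp [tent_eq_zero (ha u) hi.1, tent_eq_zero (ha v) hi.2]
            · by_cases hi : i ∈ active (a u)
              · rw [if_pos hi]
                have h1 := one_sub_exp_le (2 * D / 2 ^ i)
                have h0 : 0 ≤ 1 - Real.exp (-(2 * D / 2 ^ i)) := by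
                  have : 0 ≤ 2 * D / 2 ^ i := by positivity
                  have := Real.exp_le_one_iff.2 (neg_nonpos.2 this)
                  linarith
                calc tent i (a u) * (1 - Real.exp (-(2 * D / 2 ^ i)))
                    ≤ 2 ^ i * (2 * D / 2 ^ i) :=
                      mul_le_mul (tent_le _ _) h1 h0 (hr i).le
                  _ = 2 * D := by field_simp
              · rw [if_neg hi, tent_eq_zero (ha u) hi, zero_mul]
    rw [Fintype.sum_sigma]
    refine (sum_le_sum (fun (i : I) _ => hb i.1)).trans ?_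
    rw [sum_add_distrib,
      Finset.sum_coe_sort I (fun i => if i ∈ S then 2 * |a u - a v| else 0),
      Finset.sum_coe_sort I (fun i => if i ∈ active (a u) then 2 * D else 0),
      sum_ite_mem, sum_ite_mem, sum_const, sum_const, nsmul_eq_mul, nsmul_eq_mul]
    have c1 : ((I ∩ S).card : ℝ) ≤ 6 := by
      have : (I ∩ S).card ≤ 6 := by
        have := card_union_le (active (a u)) (active (a v))
        have := card_le_card (inter_subset_right : I ∩ S ⊆ S)
        have := card_active (a u); have := card_active (a v)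
        simp only [S] at *
        omega
      exact_mod_cast this
    have c2 : ((I ∩ active (a u)).card : ℝ) ≤ 3 := by
      exact_mod_cast (card_le_card inter_subset_right).trans (card_active (a u))
    nlinarith [mul_le_mul_of_nonneg_right c1 (abs_nonneg (a u - a v)),
      mul_le_mul_of_nonneg_right c2 hD]
  · intro u v
    set D := ∑ j, wt j * sep (E j) u v
    have hD : 0 ≤ D := sum_nonneg fun j _ => mul_nonneg (hwt j) (sep_nonneg _ _ _)
    let i₀ : I := ⟨Int.log 2 (a u), mem_image_of_mem _ (mem_univ u)⟩
    rw [Fintype.sum_sigma]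
    refine le_trans ?_ (single_le_sum
      (f := fun i : I => ∑ k, |tent i.1 (a u) * U i.1 u k - tent i.1 (a v) * U i.1 v k|)
      (fun i _ => sum_nonneg fun k _ => abs_nonneg _) (mem_univ i₀))
    simp only [i₀]
    set i := Int.log 2 (a u)
    set r := (2:ℝ) ^ i
    have hri : 0 < r := hr i
    have hau : a u < 2 * r := by
      have := Int.lt_zpow_succ_log_self (b := 2) (by norm_num) (a u)
      have h' : a u < (2:ℝ) ^ (i + 1) := by exact_mod_cast this
      rw [zpow_add_one₀ (by norm_num : (2:ℝ) ≠ 0)] at h'
      linarith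
    have htl : tent i (a u) = r := tent_log (ha u)
    set s := ∑ k, |tent i (a u) * U i u k - tent i (a v) * U i v k|
    have h1 : |r - tent i (a v)| ≤ s := by
      calc |r - tent i (a v)|
          = abs ((∑ k, |tent i (a u) * U i u k|) - ∑ k, |tent i (a v) * U i v k|) := by
            simp only [abs_mul, ← mul_sum, hU, mul_one, abs_of_nonneg (tent_nonneg _ _)]
            rw [tent_log (ha u)]
        _ = abs (∑ k, (|tent i (a u) * U i u k| - |tent i (a v) * U i v k|)) := by
            rw [sum_sub_distrib]
        _ ≤ s := (abs_sum_le_sum_abs _ _).trans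
            (sum_le_sum fun k _ => abs_abs_sub_abs_le_abs_sub _ _)
    have h2 : r * (1 - Real.exp (-(2 * D / r))) ≤ s + |r - tent i (a v)| := by
      calc r * (1 - Real.exp (-(2 * D / r)))
          = ∑ k, tent i (a u) * |U i u k - U i v k| := by
            rw [← mul_sum, hUD, tent_log (ha u)]
        _ ≤ ∑ k, (|tent i (a u) * U i u k - tent i (a v) * U i v k|
              + |tent i (a u) - tent i (a v)| * |U i v k|) := by
            refine sum_le_sum fun k _ => ?_
            rw [← abs_mul]
            have : tent i (a u) * |U i u k - U i v k| = |tent i (a u) * (U i u k - U i v k)| := by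
              rw [abs_mul, abs_of_nonneg (tent_nonneg _ _)]
            rw [this]
            refine le_trans (le_of_eq ?_) (abs_sub _ _)
            congr 1; ring
        _ = s + |r - tent i (a v)| := by
            rw [sum_add_distrib, ← mul_sum, hU, mul_one]
            congr 1
            rw [htl]
    have h3 := min_le_two_mul_one_sub_exp (x := 2 * D / r) (by positivity)
    have h4 : min (2 * D) r ≤ 2 * (r * (1 - Real.exp (-(2 * D / r)))) := by
      calc min (2 * D) r = min (2 * D / r) 1 * r := by
            rw [min_mul_of_nonneg _ _ hri.le, div_mul_cancel₀ _ hri.ne', one_mul]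
        _ ≤ 2 * (1 - Real.exp (-(2 * D / r))) * r := mul_le_mul_of_nonneg_right h3 hri.le
        _ = _ := by ring
    have h5 : min D (a u) ≤ 2 * min (2 * D) r := by
      rcases le_total (2 * D) r with h | h
      · rw [min_eq_left h]; linarith [min_le_left D (a u)]
      · rw [min_eq_right h]; linarith [min_le_right D (a u)]
    linarith

end Vale.Agent.P235
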