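import Vale.Agent.P235.Metric
import Vale.Agent.P235.Scales

/-!
Adding `k` apices to a graph changes the `ℓ₁` distortion only additively in `k`.
-/

namespace Vale.Agent.P235

open SimpleGraph Finset

lemma c1Le_mono {V : Type} [Fintype V] {G : SimpleGraph V} {C D : ℝ} (h : C ≤ D)
    (hG : C1Le G C) : C1Le G D := by
  intro ℓ hℓ
  obtain ⟨N, f, hf⟩ := hG ℓ hℓ
  exact ⟨N, f, fun x y hxy => ⟨(hf x y hxy).1, (hf x y hxy).2.trans
    (mul_le_mul_of_nonneg_right h (pathDist_nonneg hℓ x y))⟩⟩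

lemma c1Le_of_fintype {V : Type} {G : SimpleGraph V} {C : ℝ}
    (H : ∀ ℓ : Sym2 V → ℝ, (∀ e ∈ G.edgeSet, 0 < ℓ e) →
      ∃ (ι : Type) (_ : Fintype ι) (f : V → ι → ℝ), ∀ x y : V, G.Reachable x y →
        pathDist G ℓ x y ≤ ∑ i, |f x i - f y i| ∧
        ∑ i, |f x i - f y i| ≤ C * pathDist G ℓ x y) : C1Le G C := by
  intro ℓ hℓ
  obtain ⟨ι, hι, f, hf⟩ := H ℓ hℓ
  refine ⟨Fintype.card ι, fun x i => f x ((Fintype.equivFin ι).symm i), fun x y hxy => ?_⟩
  rw [Equiv.sum_comp (Fintype.equivFin ι).symm (fun i => |f x i - f y i|)]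
  exact hf x y hxy

lemma c1Le_forest {V : Type} [Fintype V] {G : SimpleGraph V} (hG : G.IsAcyclic) : C1Le G 1 := by
  refine c1Le_of_fintype fun ℓ hℓ => ?_
  obtain ⟨ι, hι, f, hf⟩ := forest_l1 hG hℓ
  exact ⟨ι, hι, f, fun x y hxy => by rw [hf x y hxy, one_mul]; exact ⟨le_rfl, le_rfl⟩⟩

/-- A walk either avoids `S`, and then lives in the induced graph, or meets `S`. -/
lemma walk_cases {V : Type} [Fintype V] {G : SimpleGraph V} {ℓ : Sym2 V → ℝ}
    (hℓ : ∀ e ∈ G.edgeSet, 0 < ℓ e) (S : Finset V)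
    {x y : ↥{z : V | z ∉ S}} (w : G.Walk x.1 y.1) :
    ((G.induce {z : V | z ∉ S}).Reachable x y ∧
      pathDist (G.induce {z : V | z ∉ S}) (ℓ ∘ Sym2.map Subtype.val) x y ≤ walkLen ℓ w) ∨
    ∃ s ∈ S, pathDist G ℓ x.1 s + pathDist G ℓ y.1 s ≤ walkLen ℓ w := by
  classical
  by_cases h : ∀ z ∈ w.support, z ∈ {z : V | z ∉ S}
  · left
    let w' := w.induce _ h
    refine ⟨⟨w'⟩, ?_⟩
    refine (pathDist_le ?_ w').trans (le_of_eq ?_)
    · intro e he
      induction e with
      | h a b => exact hℓ _ (by simpa using he)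
    · have := congrArg (fun p => Walk.edges p) (Walk.map_induce w h)
      simp only [Walk.edges_map] at this
      show ((w.induce _ h).edges.map (ℓ ∘ Sym2.map Subtype.val)).sum = (w.edges.map ℓ).sum
      refine congrArg List.sum (Eq.trans ?_ (congrArg (List.map ℓ) this))
      rw [List.map_map]
      rfl
  · right
    push Not at h
    obtain ⟨s, hs, hs'⟩ := h
    refine ⟨s, by simpa using hs', ?_⟩
    have hspec := congrArg (walkLen ℓ) (w.take_spec hs)
    rw [walkLen_append] at hspec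
    have h1 := pathDist_le hℓ (w.takeUntil s hs)
    have h2 := pathDist_le hℓ (w.dropUntil s hs).reverse
    rw [walkLen_reverse] at h2
    linarith

theorem c1Le_apex {V : Type} [Fintype V] {G : SimpleGraph V} (hconn : G.Connected)
    (S : Finset V) (hS : S.Nonempty) {C : ℝ} (hC : 1 ≤ C)
    (hH : C1Le (G.induce {z : V | z ∉ S}) C) :
    C1Le G (32 * (S.card + 12 + 6 * C)) := by
  classical
  refine c1Le_of_fintype fun ℓ hℓ => ?_
  set H := G.induce {z : V | z ∉ S} with hHdef
  set ℓ' : Sym2 ↥{z : V | z ∉ S} → ℝ := ℓ ∘ Sym2.map Subtype.val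
  have hℓ' : ∀ e ∈ H.edgeSet, 0 < ℓ' e := by
    intro e he
    induction e with
    | h a b => exact hℓ _ (by simpa [H] using he)
  have hd := fun x y : V => (hconn x y)
  set d := pathDist G ℓ
  have tri : ∀ x y z, d x z ≤ d x y + d y z := fun x y z =>
    pathDist_triangle hℓ (hd x y) (hd y z)
  have comm : ∀ x y, d x y = d y x := fun x y => pathDist_comm hℓ (hd x y)
  have dnn : ∀ x y, 0 ≤ d x y := fun x y => pathDist_nonneg hℓ x y
  have dlip : ∀ x y s, |d x s - d y s| ≤ d x y := fun x y s => abs_le.2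
    ⟨by linarith [tri y x s, comm x y], by linarith [tri x y s]⟩
  let a : V → ℝ := fun x => S.inf' hS (fun s => d x s)
  have ha_le : ∀ x s, s ∈ S → a x ≤ d x s := fun x s hs => Finset.inf'_le _ hs
  have ha_ex : ∀ x, ∃ s ∈ S, a x = d x s := fun x => Finset.exists_mem_eq_inf' hS _
  have ha0 : ∀ x ∈ S, a x = 0 := fun x hx => le_antisymm
    ((ha_le x x hx).trans_eq (pathDist_self hℓ x))
    (Finset.le_inf' hS _ fun s _ => dnn x s)
  have halip : ∀ x y, |a x - a y| ≤ d x y := by
    intro x y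
    obtain ⟨s, hs, hsx⟩ := ha_ex x
    obtain ⟨t, ht, hty⟩ := ha_ex y
    exact abs_le.2 ⟨by linarith [ha_le y s hs, tri y x s, comm x y],
      by linarith [ha_le x t ht, tri x y t]⟩
  have hapos : ∀ x : ↥{z : V | z ∉ S}, 0 < a x.1 := fun x => by
    obtain ⟨s, hs, hsx⟩ := ha_ex x.1
    rw [hsx]
    exact pathDist_pos hℓ (hd _ _) fun h => x.2 (h ▸ hs)
  obtain ⟨N, f, hf⟩ := hH ℓ' hℓ'
  obtain ⟨J, hJ, E, wt, hwt, hE⟩ := exists_cuts f
  set M : ℝ := ∑ x : ↥{z : V | z ∉ S}, a x.1
  let E' : J ⊕ ↥{z : V | z ∉ S} → Set ↥{z : V | z ∉ S} :=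
    Sum.elim E fun x => {z | H.Reachable x z}
  let wt' : J ⊕ ↥{z : V | z ∉ S} → ℝ := Sum.elim wt fun _ => M
  have hM : 0 ≤ M := sum_nonneg fun x _ => (hapos x).le
  obtain ⟨K, hK, Φ, hΦn, hΦu, hΦl⟩ :=
    exists_scaled E' wt' (by rintro (j | x); exacts [hwt j, hM]) (fun x => a x.1) hapos
  -- comparison of the cut metric with the distances
  have hDlow : ∀ x y, min (d x.1 y.1) (a x.1) ≤ ∑ j, wt' j * sep (E' j) x y := by
    intro x y
    have n1 : 0 ≤ ∑ j, wt j * sep (E j) x y :=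
      sum_nonneg fun j _ => mul_nonneg (hwt j) (sep_nonneg _ _ _)
    have n2 : 0 ≤ ∑ z : ↥{z : V | z ∉ S}, M * sep {t | H.Reachable z t} x y :=
      sum_nonneg fun j _ => mul_nonneg hM (sep_nonneg _ _ _)
    rw [Fintype.sum_sum_type]
    simp only [E', wt', Sum.elim_inl, Sum.elim_inr]
    by_cases hr : H.Reachable x y
    · have h1 := (hf x y hr).1
      rw [hE] at h1
      have h2 : d x.1 y.1 ≤ pathDist H ℓ' x y := by
        refine le_pathDist hr fun w => ?_
        refine (pathDist_le hℓ (w.map (Embedding.induce _).toHom)).trans (le_of_eq ?_)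
        simp only [walkLen, Walk.edges_map, List.map_map]
        rfl
      linarith [min_le_left (d x.1 y.1) (a x.1)]
    · have h1 : M * sep {t | H.Reachable x t} x y ≤
          ∑ z : ↥{z : V | z ∉ S}, M * sep {t | H.Reachable z t} x y :=
        Finset.single_le_sum (f := fun z => M * sep {t | H.Reachable z t} x y)
          (fun z _ => mul_nonneg hM (sep_nonneg _ _ _)) (mem_univ x)
      have h2 : sep {t | H.Reachable x t} x y = 1 := by simp [sep, hr]
      have h3 : a x.1 ≤ M :=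
        Finset.single_le_sum (f := fun z : ↥{z : V | z ∉ S} => a z.1)
          (fun z _ => (hapos z).le) (mem_univ x)
      rw [h2, mul_one] at h1
      linarith [min_le_right (d x.1 y.1) (a x.1)]
  have hΦd : ∀ x y, ∑ k, |Φ x k - Φ y k| ≤ (12 + 6 * C) * d x.1 y.1 := by
    intro x y
    have key : ∑ k, |Φ x k - Φ y k| / (12 + 6 * C) ≤ d x.1 y.1 := by
      rw [← Finset.sum_div, div_le_iff₀ (by linarith)]
      have hlow : ∀ w : G.Walk x.1 y.1,
          ∑ k, |Φ x k - Φ y k| ≤ walkLen ℓ w * (12 + 6 * C) := by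
        intro w
        have hw0 := walkLen_nonneg hℓ w
        rcases walk_cases hℓ S w with ⟨hr, hw⟩ | ⟨s, hs, hw⟩
        · have h1 := (hf x y hr).2
          rw [hE] at h1
          have h3 : ∀ z : ↥{z : V | z ∉ S}, sep {t | H.Reachable z t} x y = 0 := fun z => by
            have : H.Reachable z x ↔ H.Reachable z y :=
              ⟨fun h => h.trans hr, fun h => h.trans hr.symm⟩
            simp [sep, this]
          have h4 := hΦu x y
          rw [Fintype.sum_sum_type] at h4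
          simp only [E', wt', Sum.elim_inl, Sum.elim_inr, h3, mul_zero, sum_const_zero,
            add_zero] at h4
          have h5 : |a x.1 - a y.1| ≤ walkLen ℓ w :=
            (halip _ _).trans (pathDist_le hℓ w)
          have h6 : C * pathDist H ℓ' x y ≤ C * walkLen ℓ w :=
            mul_le_mul_of_nonneg_left hw (by linarith)
          nlinarith
        · calc ∑ k, |Φ x k - Φ y k| ≤ ∑ k, (|Φ x k| + |Φ y k|) :=
                sum_le_sum fun k _ => abs_sub _ _
            _ ≤ 6 * a x.1 + 6 * a y.1 := by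
                rw [sum_add_distrib]; exact add_le_add (hΦn x) (hΦn y)
            _ ≤ _ := by nlinarith [ha_le x.1 s hs, ha_le y.1 s hs]
      have h := le_pathDist (ℓ := ℓ) (hd x.1 y.1)
        (c := (∑ k, |Φ x k - Φ y k|) / (12 + 6 * C))
        fun w => (div_le_iff₀ (by linarith)).2 (hlow w)
      rwa [div_le_iff₀ (by linarith)] at h
    rw [← Finset.sum_div, div_le_iff₀ (by linarith)] at key
    linarith
  let Ψ : V → K → ℝ := fun x => if h : x ∉ S then Φ ⟨x, h⟩ else 0
  have hΨout : ∀ {x : V}, x ∈ S → ∀ k, Ψ x k = 0 := by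
    intro x hx k
    simp only [Ψ, dif_neg (not_not_intro hx), Pi.zero_apply]
  have hΨin : ∀ {x : V} (hx : x ∉ S) k, Ψ x k = Φ ⟨x, hx⟩ k := by
    intro x hx k
    simp only [Ψ, dif_pos hx]
  have hΨd : ∀ x y, ∑ k, |Ψ x k - Ψ y k| ≤ (12 + 6 * C) * d x y := by
    intro x y
    have := dnn x y
    by_cases hx : x ∈ S <;> by_cases hy : y ∈ S
    · simp only [hΨout hx, hΨout hy, sub_zero, abs_zero, sum_const_zero]
      positivity
    · simp only [hΨout hx, hΨin hy, zero_sub, abs_neg]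
      refine (hΦn _).trans ?_
      have h1 := ha_le y x hx
      have h2 := comm y x
      nlinarith
    · simp only [hΨout hy, hΨin hx, sub_zero]
      refine (hΦn _).trans ?_
      have h1 := ha_le x y hy
      nlinarith
    · simp only [hΨin hx, hΨin hy]
      exact hΦd _ _
  refine ⟨↥S ⊕ K, inferInstance,
    fun x => Sum.elim (fun s => 32 * d x s.1) (fun k => 32 * Ψ x k), fun x y _ => ?_⟩
  rw [Fintype.sum_sum_type]
  simp only [Sum.elim_inl, Sum.elim_inr, ← mul_sub, abs_mul, ← mul_sum,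
    abs_of_nonneg (show (0:ℝ) ≤ 32 by norm_num)]
  constructor
  · have nΨ : 0 ≤ ∑ k, |Ψ x k - Ψ y k| := sum_nonneg fun k _ => abs_nonneg _
    have nF : 0 ≤ ∑ s : ↥S, |d x s.1 - d y s.1| := sum_nonneg fun k _ => abs_nonneg _
    have := dnn x y
    have hsingle : ∀ s (hs : s ∈ S), |d x s - d y s| ≤ ∑ s : ↥S, |d x s.1 - d y s.1| :=
      fun s hs => Finset.single_le_sum (f := fun s : ↥S => |d x s.1 - d y s.1|)
        (fun k _ => abs_nonneg _) (mem_univ ⟨s, hs⟩)
    by_cases h1 : a x ≤ d x y / 4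
    · obtain ⟨s, hs, hsx⟩ := ha_ex x
      have h2 := tri x s y
      have h3 := comm s y
      have h4 := hsingle s hs
      have h5 := neg_abs_le (d x s - d y s)
      linarith
    by_cases h2 : a y ≤ d x y / 4
    · obtain ⟨s, hs, hsy⟩ := ha_ex y
      have h2 := tri x s y
      have h3 := comm s y
      have h4 := hsingle s hs
      have h5 := le_abs_self (d x s - d y s)
      linarith
    have hx : x ∉ S := fun h => h1 (by rw [ha0 x h]; linarith)
    have hy : y ∉ S := fun h => h2 (by rw [ha0 y h]; linarith)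
    have h3 := hΦl ⟨x, hx⟩ ⟨y, hy⟩
    have h4 := hDlow ⟨x, hx⟩ ⟨y, hy⟩
    simp only [hΨin hx, hΨin hy] at nΨ ⊢
    rcases le_total (d x y) (a x) with h | h
    · rw [min_eq_left h] at h4
      have : d x y / 4 ≤ min (∑ j, wt' j * sep (E' j) ⟨x, hx⟩ ⟨y, hy⟩) (a x) :=
        le_min (by linarith) (by linarith)
      linarith
    · rw [min_eq_right h] at h4
      have : d x y / 4 ≤ min (∑ j, wt' j * sep (E' j) ⟨x, hx⟩ ⟨y, hy⟩) (a x) :=
        le_min (by linarith) (by linarith)
      linarith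
  · have h1 : ∑ s : ↥S, |d x s.1 - d y s.1| ≤ (S.card : ℝ) * d x y := by
      refine (sum_le_sum fun (s : ↥S) _ => dlip x y s.1).trans (le_of_eq ?_)
      simp
    nlinarith [hΨd x y]

/-- The additive apex bound, also when `S` is empty. -/
theorem c1Le_apex' {V : Type} [Fintype V] {G : SimpleGraph V} (hconn : G.Connected)
    (S : Finset V) {C : ℝ} (hC : 1 ≤ C) (hH : C1Le (G.induce {z : V | z ∉ S}) C) :
    C1Le G (32 * (S.card + 12 + 6 * C)) := by
  rcases S.eq_empty_or_nonempty with rfl | hS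
  · classical
    refine c1Le_mono (show C ≤ _ by simp; linarith) ?_
    intro ℓ hℓ
    obtain ⟨N, f, hf⟩ := hH (ℓ ∘ Sym2.map Subtype.val) (by
      intro e he
      induction e with
      | h a b => exact hℓ _ (by simpa using he))
    refine ⟨N, fun x => f ⟨x, by simp⟩, fun x y h => ?_⟩
    set x' : ↥{z : V | z ∉ (∅ : Finset V)} := ⟨x, by simp⟩
    set y' : ↥{z : V | z ∉ (∅ : Finset V)} := ⟨y, by simp⟩
    have key : ∀ w : G.Walk x'.1 y'.1, (G.induce _).Reachable x' y' ∧
        pathDist (G.induce _) (ℓ ∘ Sym2.map Subtype.val) x' y' ≤ walkLen ℓ w := fun w => by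
      rcases walk_cases hℓ ∅ w with h' | ⟨s, hs, _⟩
      · exact h'
      · simp at hs
    obtain ⟨w⟩ := h
    have hr := (key w).1
    have e : pathDist G ℓ x y =
        pathDist (G.induce {z : V | z ∉ (∅ : Finset V)}) (ℓ ∘ Sym2.map Subtype.val) x' y' := by
      refine le_antisymm (le_pathDist hr fun p => ?_) (le_pathDist ⟨w⟩ fun p => (key p).2)
      refine (pathDist_le hℓ (p.map (Embedding.induce _).toHom)).trans (le_of_eq ?_)
      simp only [walkLen, Walk.edges_map, List.map_map]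
      rfl
    rw [e]
    exact hf x' y' hr
  · exact c1Le_apex hconn S hS hC hH

end Vale.Agent.P235
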