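import Mathlib.Data.Finset.Max
import Mathlib.Data.Real.Basic
import Mathlib.Algebra.BigOperators.Ring.Finset
import Mathlib.Algebra.Order.BigOperators.Group.Finset
import Mathlib.Data.Fintype.BigOperators
import Mathlib.Data.Int.Log
import Mathlib.Analysis.SpecialFunctions.Exp
import Mathlib.Algebra.BigOperators.Field

/-!
Cut decompositions, exponential truncation of cut metrics, and truncation at a variable scale.
-/

namespace Vale.Agent.P235

open Finset

/-- indicator of a cut separating two points -/
noncomputable def sep {W : Type} (E : Set W) (u v : W) : ℝ :=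
  by classical exact if (u ∈ E ↔ v ∈ E) then 0 else 1

lemma sep_nonneg {W : Type} (E : Set W) (u v : W) : 0 ≤ sep E u v := by
  unfold sep; split <;> norm_num

lemma line_cuts {W : Type} (s : Finset ℝ) :
    ∀ g : W → ℝ, (∀ u, g u ∈ s) →
      ∃ (n : ℕ) (E : Fin n → Set W) (wt : Fin n → ℝ), (∀ j, 0 ≤ wt j) ∧
        ∀ u v, |g u - g v| = ∑ j, wt j * sep (E j) u v := by
  classical
  induction s using Finset.induction_on_max with
  | empty =>
    intro g hg
    exact ⟨0, fun _ => ∅, fun _ => 0, fun _ => le_rfl, fun u => absurd (hg u) (notMem_empty _)⟩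
  | insert M s hM ih =>
    intro g hg
    rcases s.eq_empty_or_nonempty with rfl | hs
    · refine ⟨0, fun _ => ∅, fun _ => 0, fun _ => le_rfl, fun u v => ?_⟩
      have h1 : g u = M := by simpa using hg u
      have h2 : g v = M := by simpa using hg v
      simp [h1, h2]
    · set m := s.max' hs
      have hm : m < M := hM m (max'_mem _ _)
      let g' : W → ℝ := fun u => if g u = M then m else g u
      obtain ⟨n, E, wt, hwt, hE⟩ := ih g' (fun u => by
        simp only [g']
        split
        · exact max'_mem _ _
        · rename_i h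
          rcases Finset.mem_insert.1 (hg u) with h' | h'
          · exact absurd h' h
          · exact h')
      refine ⟨n + 1, Fin.cons {u | g u = M} E, Fin.cons (M - m) wt, ?_, ?_⟩
      · intro j
        refine Fin.cases ?_ ?_ j
        · simpa using hm.le
        · simpa using hwt
      · intro u v
        rw [Fin.sum_univ_succ]
        simp only [Fin.cons_zero, Fin.cons_succ, ← hE]
        have key : ∀ w, g w ≠ M → g w ≤ m := fun w hw => by
          rcases Finset.mem_insert.1 (hg w) with h' | h'
          · exact absurd h' hw
          · exact le_max' _ _ h'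
        by_cases hu : g u = M <;> by_cases hv : g v = M
        · simp [sep, g', hu, hv]
        · have := key v hv
          simp only [g', if_pos hu, if_neg hv]
          have : sep {u | g u = M} u v = 1 := by simp [sep, hu, hv]
          rw [this, abs_of_nonneg (by linarith), abs_of_nonneg (by linarith)]
          linarith
        · have := key u hu
          simp only [g', if_neg hu, if_pos hv]
          have : sep {u | g u = M} u v = 1 := by simp [sep, hu, hv]
          rw [this, abs_of_nonpos (by linarith), abs_of_nonpos (by linarith)]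
          linarith
        · simp [sep, g', hu, hv]

/-- A finite subset of `ℓ₁` has a finite cut decomposition. -/
lemma exists_cuts {W : Type} [Fintype W] {ι : Type} [Fintype ι] (f : W → ι → ℝ) :
    ∃ (J : Type) (_ : Fintype J) (E : J → Set W) (wt : J → ℝ), (∀ j, 0 ≤ wt j) ∧
      ∀ u v, ∑ i, |f u i - f v i| = ∑ j, wt j * sep (E j) u v := by
  classical
  have h := fun i => line_cuts (Finset.univ.image fun u => f u i) (fun u => f u i)
    (fun u => Finset.mem_image_of_mem _ (Finset.mem_univ u))
  choose n E wt hwt hE using h
  refine ⟨Σ i, Fin (n i), inferInstance, fun p => E p.1 p.2, fun p => wt p.1 p.2,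
    fun p => hwt _ _, fun u v => ?_⟩
  rw [Fintype.sum_sigma]
  exact Finset.sum_congr rfl fun i _ => hE i u v

/-- Exponential truncation of a cut metric: an embedding into the unit sphere of `ℓ₁` with
distance `1 - exp (-2 D / r)`. -/
lemma exists_trunc {W J : Type} [Fintype J] (E : J → Set W) (wt : J → ℝ)
    (hwt : ∀ j, 0 ≤ wt j) {r : ℝ} (hr : 0 < r) :
    ∃ (K : Type) (_ : Fintype K) (U : W → K → ℝ), (∀ u, ∑ k, |U u k| = 1) ∧
      ∀ u v, ∑ k, |U u k - U v k| =
        1 - Real.exp (-(2 * (∑ j, wt j * sep (E j) u v) / r)) := by
  classical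
  let p : J → ℝ := fun j => (1 - Real.exp (-(2 * wt j / r))) / 2
  have hp0 : ∀ j, 0 ≤ p j := fun j => by
    have : Real.exp (-(2 * wt j / r)) ≤ 1 := Real.exp_le_one_iff.2 (by
      have := hwt j
      have : 0 ≤ 2 * wt j / r := by positivity
      linarith)
    simp only [p]; linarith
  have hp1 : ∀ j, 0 ≤ 1 - p j := fun j => by
    have := Real.exp_pos (-(2 * wt j / r))
    simp only [p]; linarith
  let P : Finset J → ℝ := fun A => (∏ j ∈ A, p j) * ∏ j ∈ Aᶜ, (1 - p j)
  have hP : ∀ A, 0 ≤ P A := fun A =>
    mul_nonneg (prod_nonneg fun j _ => hp0 j) (prod_nonneg fun j _ => hp1 j)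
  let σ : W → J → ℝ := fun u j => if u ∈ E j then -1 else 1
  let χ : W → Finset J → ℝ := fun u A => ∏ j ∈ A, σ u j
  have hχ : ∀ u A, χ u A = 1 ∨ χ u A = -1 := by
    intro u A
    simp only [χ]
    induction A using Finset.induction_on with
    | empty => simp
    | insert a A ha ih =>
      rw [prod_insert ha]
      rcases ih with h | h <;> (simp only [h, σ]; split <;> norm_num)
  have hsum : ∑ A, P A = 1 := by
    have := Fintype.prod_add p (fun j => 1 - p j)
    simp only [add_sub_cancel, prod_const_one] at this
    exact this.symm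
  refine ⟨Finset J, inferInstance, fun u A => P A * χ u A, fun u => ?_, fun u v => ?_⟩
  · rw [← hsum]
    refine sum_congr rfl fun A _ => ?_
    rcases hχ u A with h | h <;> simp [h, abs_of_nonneg (hP A)]
  · have h1 : ∀ A, |P A * χ u A - P A * χ v A| = P A - P A * (χ u A * χ v A) := by
      intro A
      have := hP A
      rcases hχ u A with h | h <;> rcases hχ v A with h' | h' <;> rw [h, h']
      · norm_num
      · rw [abs_of_nonneg (by linarith)]; ring
      · rw [abs_of_nonpos (by linarith)]; ring
      · norm_num
    rw [sum_congr rfl (fun A _ => h1 A), sum_sub_distrib, hsum]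
    congr 1
    have h2 : ∑ A, P A * (χ u A * χ v A) = ∏ j, (p j * (σ u j * σ v j) + (1 - p j)) := by
      rw [Fintype.prod_add]
      refine sum_congr rfl fun A _ => ?_
      simp only [P, χ]
      rw [prod_mul_distrib, prod_mul_distrib]
      ring
    rw [h2, mul_sum, Finset.sum_div, ← sum_neg_distrib, Real.exp_sum]
    refine prod_congr rfl fun j _ => ?_
    by_cases hu : u ∈ E j <;> by_cases hv : v ∈ E j <;>
      simp [σ, sep, hu, hv, p] <;> ring

end Vale.Agent.P235
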