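import Mathlib.Combinatorics.SimpleGraph.Acyclic
import Mathlib.Data.Real.Archimedean
import Mathlib.Data.Fintype.Card

/-!
Shortest path metrics of edge-weighted graphs and their embeddings into `ℓ₁`.
-/

namespace Vale.Agent.P235

open SimpleGraph

/-- Length of a walk for the edge lengths `ℓ`, counted with multiplicity. -/
noncomputable def walkLen {V : Type} {G : SimpleGraph V} (ℓ : Sym2 V → ℝ) {x y : V}
    (w : G.Walk x y) : ℝ :=
  (w.edges.map ℓ).sum

/-- Shortest path distance between `x` and `y` for the edge lengths `ℓ`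
(it is used only for vertices joined by a walk). -/
noncomputable def pathDist {V : Type} (G : SimpleGraph V) (ℓ : Sym2 V → ℝ) (x y : V) : ℝ :=
  ⨅ w : G.Walk x y, walkLen ℓ w

/-- `c₁(G) ≤ C`: for all positive edge lengths the shortest path metric of (each component of)
`G` embeds with distortion at most `C` into a finite-dimensional `ℓ₁` space. -/
def C1Le {V : Type} (G : SimpleGraph V) (C : ℝ) : Prop :=
  ∀ ℓ : Sym2 V → ℝ, (∀ e ∈ G.edgeSet, 0 < ℓ e) →
    ∃ (N : ℕ) (f : V → Fin N → ℝ), ∀ x y : V, G.Reachable x y →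
      pathDist G ℓ x y ≤ ∑ i, |f x i - f y i| ∧
      ∑ i, |f x i - f y i| ≤ C * pathDist G ℓ x y

end Vale.Agent.P235
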