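import Mathlib

/-!
Reachability inside a vertex set, and Menger's theorem for disjoint walks between two sets
(after Göring).
-/

namespace Vale.Agent.P235

open SimpleGraph

variable {V : Type}

/-- `x` and `y` are joined by a walk inside `s`. -/
def Reach (G : SimpleGraph V) (s : Set V) (x y : V) : Prop :=
  ∃ w : G.Walk x y, ∀ t ∈ w.support, t ∈ s

/-- `s` is connected inside itself. -/
def ConnIn (G : SimpleGraph V) (s : Set V) : Prop :=
  ∀ x ∈ s, ∀ y ∈ s, Reach G s x y

/-- `s` is connected and has no cut vertex. -/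
def Block (G : SimpleGraph V) (s : Set V) : Prop :=
  ConnIn G s ∧ ∀ z ∈ s, ConnIn G (s \ {z})

/-- The edges of `G` inside `U`. -/
def within (G : SimpleGraph V) (U : Set V) : SimpleGraph V where
  Adj x y := G.Adj x y ∧ x ∈ U ∧ y ∈ U
  symm := ⟨fun _ _ h => ⟨h.1.symm, h.2.2, h.2.1⟩⟩
  loopless := ⟨fun _ h => h.1.ne rfl⟩

variable {G : SimpleGraph V}

theorem within_le (U : Set V) : within G U ≤ G := fun _ _ h => h.1

theorem within_support {U : Set V} {x y : V} (hx : x ∈ U) (w : (within G U).Walk x y) :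
    ∀ t ∈ w.support, t ∈ U := by
  induction w with
  | nil => simpa using hx
  | cons h q ih =>
    intro t ht
    rw [Walk.support_cons, List.mem_cons] at ht
    rcases ht with rfl | ht
    · exact hx
    · exact ih h.2.2 t ht

theorem walk_within {U : Set V} {x y : V} (w : G.Walk x y) (hw : ∀ t ∈ w.support, t ∈ U) :
    ∃ w' : (within G U).Walk x y, w'.support = w.support := by
  induction w with
  | nil => exact ⟨Walk.nil, rfl⟩
  | @cons a b c h q ih =>
    rw [Walk.support_cons, List.forall_mem_cons] at hw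
    obtain ⟨q', hq⟩ := ih hw.2
    have hadj : (within G U).Adj a b := ⟨h, hw.1, hw.2 b q.start_mem_support⟩
    exact ⟨Walk.cons hadj q', congrArg (List.cons a) hq⟩

namespace Reach

theorem refl {s : Set V} {x : V} (hx : x ∈ s) : Reach G s x x := ⟨Walk.nil, by simpa using hx⟩

theorem symm {s : Set V} {x y : V} (h : Reach G s x y) : Reach G s y x := by
  obtain ⟨w, hw⟩ := h
  exact ⟨w.reverse, fun t ht => hw t (by simpa using ht)⟩

theorem trans {s : Set V} {x y z : V} (h : Reach G s x y) (h' : Reach G s y z) :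
    Reach G s x z := by
  obtain ⟨w, hw⟩ := h
  obtain ⟨w', hw'⟩ := h'
  exact ⟨w.append w', fun t ht => ((Walk.mem_support_append_iff w w').1 ht).elim (hw t) (hw' t)⟩

theorem mono {s t : Set V} {x y : V} (h : Reach G s x y) (hst : s ⊆ t) : Reach G t x y := by
  obtain ⟨w, hw⟩ := h
  exact ⟨w, fun z hz => hst (hw z hz)⟩

theorem mem_left {s : Set V} {x y : V} (h : Reach G s x y) : x ∈ s := by
  obtain ⟨w, hw⟩ := h
  exact hw x w.start_mem_support

theorem mem_right {s : Set V} {x y : V} (h : Reach G s x y) : y ∈ s := by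
  obtain ⟨w, hw⟩ := h
  exact hw y w.end_mem_support

theorem of_adj {s : Set V} {x y : V} (hx : x ∈ s) (hy : y ∈ s) (h : G.Adj x y) :
    Reach G s x y := ⟨h.toWalk, by simp [hx, hy]⟩

theorem reachable_induce {s : Set V} {x y : V} (h : Reach G s x y) :
    (G.induce s).Reachable ⟨x, h.mem_left⟩ ⟨y, h.mem_right⟩ := by
  obtain ⟨w, hw⟩ := h
  exact ⟨w.induce s hw⟩

theorem of_support {x y z : V} (w : G.Walk x y) (hz : z ∈ w.support) :
    Reach G {t | t ∈ w.support} x z := by
  classical
  exact ⟨w.takeUntil z hz, fun t ht => w.support_takeUntil_subset_support hz ht⟩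

end Reach

theorem connIn_support {x y : V} (w : G.Walk x y) : ConnIn G {t | t ∈ w.support} :=
  fun _ ha _ hb => (Reach.of_support w ha).symm.trans (Reach.of_support w hb)

theorem ConnIn.union {s t : Set V} {a b : V} (hs : ConnIn G s) (ht : ConnIn G t) (ha : a ∈ s)
    (hb : b ∈ t) (hab : a = b ∨ G.Adj a b) : ConnIn G (s ∪ t) := by
  have hr : Reach G (s ∪ t) a b := by
    rcases hab with rfl | h
    · exact Reach.refl (Or.inl ha)
    · exact Reach.of_adj (Or.inl ha) (Or.inr hb) h
  have key : ∀ z ∈ s ∪ t, Reach G (s ∪ t) z a := by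
    rintro z (hz | hz)
    · exact (hs z hz a ha).mono Set.subset_union_left
    · exact ((ht z hz b hb).mono Set.subset_union_right).trans hr.symm
  exact fun x hx y hy => (key x hx).trans (key y hy).symm

theorem ConnIn.connected {s : Set V} (h : ConnIn G s) (hne : s.Nonempty) :
    (G.induce s).Connected := by
  obtain ⟨a, ha⟩ := hne
  have : Nonempty ↥s := ⟨⟨a, ha⟩⟩
  exact ⟨fun x y => (h x x.2 y y.2).reachable_induce⟩

/-- Splitting a walk at the first vertex in a set. -/
theorem exists_first {x y : V} (w : G.Walk x y) (s : Set V) (h : ∃ t ∈ w.support, t ∈ s) :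
    ∃ z, ∃ p : G.Walk x z, z ∈ s ∧ (∀ t ∈ p.support, t ∈ w.support) ∧
      ∀ t ∈ p.support, t ≠ z → Reach G {v | v ∈ w.support ∧ v ∉ s} x t := by
  induction w with
  | nil =>
    obtain ⟨t, ht, hts⟩ := h
    simp only [Walk.support_nil, List.mem_singleton] at ht
    subst ht
    exact ⟨t, Walk.nil, hts, by simp, by simp⟩
  | @cons a b c hab q ih =>
    by_cases ha : a ∈ s
    · exact ⟨a, Walk.nil, ha, by simp, by simp⟩
    · obtain ⟨t, ht, hts⟩ := h
      rw [Walk.support_cons, List.mem_cons] at ht
      rcases ht with rfl | ht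
      · exact absurd hts ha
      obtain ⟨z, p, hz, hp, hp'⟩ := ih ⟨t, ht, hts⟩
      refine ⟨z, Walk.cons hab p, hz, ?_, ?_⟩
      · intro u hu
        rw [Walk.support_cons, List.mem_cons] at hu ⊢
        exact hu.imp_right (hp u)
      · intro u hu hne
        have ha' : a ∈ {v | v ∈ (Walk.cons hab q).support ∧ v ∉ s} := ⟨by simp, ha⟩
        rw [Walk.support_cons, List.mem_cons] at hu
        rcases hu with rfl | hu
        · exact Reach.refl ha'
        · have h1 : Reach G {v | v ∈ (Walk.cons hab q).support ∧ v ∉ s} b u :=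
            (hp' u hu hne).mono fun v hv => ⟨by simp [hv.1], hv.2⟩
          exact (Reach.of_adj ha' h1.mem_left hab).trans h1

/-- `S` meets every walk from `A` to `B`. -/
def Separates (G : SimpleGraph V) (A B : Set V) (S : Finset V) : Prop :=
  ∀ a ∈ A, ∀ b ∈ B, ∀ w : G.Walk a b, ∃ t ∈ w.support, t ∈ S

/-- `k` pairwise disjoint walks from `A` to `B`. -/
def Linked' (G : SimpleGraph V) (A B : Set V) (k : ℕ) : Prop :=
  ∃ (a b : Fin k → V) (w : ∀ i, G.Walk (a i) (b i)), (∀ i, a i ∈ A ∧ b i ∈ B) ∧
    ∀ i j, i ≠ j → ∀ t ∈ (w i).support, t ∉ (w j).support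

theorem Separates.symm {A B : Set V} {S : Finset V} (h : Separates G A B S) :
    Separates G B A S := fun b hb a ha w => by
  obtain ⟨t, ht, hts⟩ := h a ha b hb w.reverse
  exact ⟨t, by simpa using ht, hts⟩

/-- A walk of `G` that avoids crossing the edge `xy` is a walk without it. -/
theorem walk_deleteEdges_or {x y : V} {a b : V} (w : G.Walk a b) :
    (∃ w' : (G.deleteEdges {s(x, y)}).Walk a b, w'.support = w.support) ∨
    (∃ z, (z = x ∨ z = y) ∧ ∃ p : (G.deleteEdges {s(x, y)}).Walk a z,
      ∀ t ∈ p.support, t ∈ w.support) := by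
  induction w with
  | nil => exact Or.inl ⟨Walk.nil, rfl⟩
  | @cons a c b hac q ih =>
    by_cases he : s(a, c) = s(x, y)
    · refine Or.inr ⟨a, ?_, Walk.nil, by simp⟩
      rcases Sym2.eq_iff.1 he with ⟨h, -⟩ | ⟨h, -⟩
      · exact Or.inl h
      · exact Or.inr h
    · have hadj : (G.deleteEdges {s(x, y)}).Adj a c := by simp [hac, he]
      rcases ih with ⟨w', hw'⟩ | ⟨z, hz, p, hp⟩
      · exact Or.inl ⟨Walk.cons hadj w', by simp [hw']⟩
      · refine Or.inr ⟨z, hz, Walk.cons hadj p, ?_⟩
        intro t ht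
        rw [Walk.support_cons, List.mem_cons] at ht ⊢
        exact ht.imp_right (hp t)

/-- **Menger's theorem**: if every set separating `A` from `B` has at least `k` vertices, there
are `k` disjoint walks from `A` to `B`. -/
theorem menger [Fintype V] (G : SimpleGraph V) (A B : Set V) (k : ℕ)
    (h : ∀ S : Finset V, Separates G A B S → k ≤ S.card) : Linked' G A B k := by
  classical
  induction hm : G.edgeFinset.card using Nat.strong_induction_on generalizing G A B k with
  | _ m ih =>
  by_cases hE : ∃ x y, G.Adj x y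
  swap
  · let S : Finset V := Finset.univ.filter fun v => v ∈ A ∧ v ∈ B
    have hS : Separates G A B S := by
      intro a ha b hb w
      cases w with
      | nil => exact ⟨a, by simp, by simp [S, ha, hb]⟩
      | cons hadj _ => exact absurd ⟨_, _, hadj⟩ hE
    let e := S.equivFin.symm
    let f : Fin k → V := fun i => (e (i.castLE (h S hS))).1
    have hf : ∀ i, f i ∈ A ∧ f i ∈ B := fun i => by
      exact (Finset.mem_filter.1 (e (i.castLE (h S hS))).2).2
    refine ⟨f, f, fun i => Walk.nil, hf, fun i j hij t ht ht' => hij ?_⟩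
    simp only [Walk.support_nil, List.mem_singleton] at ht ht'
    exact Fin.castLE_injective _ (e.injective (Subtype.ext (ht.symm.trans ht')))
  obtain ⟨x₀, y₀, hxy₀⟩ := hE
  let G' := G.deleteEdges {s(x₀, y₀)}
  have hle : G' ≤ G := G.deleteEdges_le _
  have hcard : G'.edgeFinset.card < m := by
    rw [← hm]
    refine Finset.card_lt_card ((Finset.ssubset_iff_of_subset ?_).2 ⟨s(x₀, y₀), ?_, ?_⟩)
    · intro e he
      rw [mem_edgeFinset] at he ⊢
      exact edgeSet_mono hle he
    · simpa using hxy₀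
    · simp [G']
  by_cases hsmall : ∀ S : Finset V, Separates G' A B S → k ≤ S.card
  · obtain ⟨a, b, w, hab, hd⟩ := ih G'.edgeFinset.card hcard G' A B k hsmall (congrArg Finset.card (Finset.ext fun e => by simp only [mem_edgeFinset]))
    exact ⟨a, b, fun i => (w i).mapLe hle, hab, fun i j hij t ht => by
      simpa using hd i j hij t (by simpa using ht)⟩
  push Not at hsmall
  obtain ⟨S, hS, hSk⟩ := hsmall
  let side : Set V := {z | ∃ a ∈ A, Reach G' {t | t ∉ S} a z}
  have hB : ∀ b ∈ B, b ∉ side := by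
    rintro b hb ⟨a, ha, w, hw⟩
    obtain ⟨t, ht, hts⟩ := hS a ha b hb w
    exact hw t ht hts
  have hnot : ¬ Separates G A B S := fun hc => by have := h S hc; omega
  obtain ⟨x, y, hxy, hxA, hyA⟩ : ∃ x y : V, s(x, y) = s(x₀, y₀) ∧ x ∈ side ∧ y ∉ side := by
    unfold Separates at hnot
    push Not at hnot
    obtain ⟨a₁, ha₁, b₁, hb₁, w, hw⟩ := hnot
    rcases walk_deleteEdges_or (x := x₀) (y := y₀) w with ⟨w', hw'⟩ | ⟨z, hz, p, hp⟩
    · exact absurd ⟨a₁, ha₁, w', fun t ht => hw t (hw' ▸ ht)⟩ (hB b₁ hb₁)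
    rcases walk_deleteEdges_or (x := x₀) (y := y₀) w.reverse with ⟨w', hw'⟩ | ⟨z', hz', q, hq⟩
    · refine absurd ⟨a₁, ha₁, w'.reverse, fun t ht => ?_⟩ (hB b₁ hb₁)
      rw [Walk.support_reverse, List.mem_reverse, hw', Walk.support_reverse,
        List.mem_reverse] at ht
      exact hw t ht
    have hzs : z ∈ side := ⟨a₁, ha₁, p, fun t ht => hw t (hp t ht)⟩
    have hz'r : Reach G' {t | t ∉ S} b₁ z' :=
      ⟨q, fun t ht => hw t (by simpa using hq t ht)⟩
    have hz's : z' ∉ side := by
      rintro ⟨a, ha, hr⟩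
      exact hB b₁ hb₁ ⟨a, ha, hr.trans hz'r.symm⟩
    have hne : z ≠ z' := fun e => hz's (e ▸ hzs)
    refine ⟨z, z', ?_, hzs, hz's⟩
    rcases hz with rfl | rfl <;> rcases hz' with rfl | rfl
    · exact absurd rfl hne
    · rfl
    · exact Sym2.eq_swap
    · exact absurd rfl hne
  have hxS : x ∉ S := fun hx => by
    obtain ⟨a, _, hr⟩ := hxA
    exact hr.mem_right hx
  have hadj : G.Adj x y := by rw [← mem_edgeSet, hxy]; exact hxy₀
  have hG'adj : ∀ u v, G.Adj u v → s(u, v) ≠ s(x, y) → G'.Adj u v := fun u v huv hne => by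
    simp [G', huv, ← hxy, hne]
  have hdel : ∀ {a b : V} (w : G.Walk a b),
      (∃ w' : G'.Walk a b, w'.support = w.support) ∨
      (∃ z, (z = x ∨ z = y) ∧ ∃ p : G'.Walk a z, ∀ t ∈ p.support, t ∈ w.support) := by
    intro a b w
    have e : G' = G.deleteEdges {s(x, y)} := by rw [hxy]
    rw [e]
    exact walk_deleteEdges_or w
  -- a separator of `A` from `S + x` without the edge separates `A` from `B`
  have hcut : ∀ (c : V) (C D : Set V) (T : Finset V), Separates G' C D S →
      (∀ a ∈ C, ∀ z, (z = x ∨ z = y) → z ≠ c → ¬ Reach G' {t | t ∉ S} a z) →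
      Separates G' C ↑(insert c S) T → Separates G C D T := by
    intro c C D T hCD hno hT a ha b hb w
    have key : ∀ {z : V} (q : G'.Walk a z), (∀ t ∈ q.support, t ∈ w.support) →
        (∃ t ∈ q.support, t ∈ (↑(insert c S) : Set V)) → ∃ t ∈ w.support, t ∈ T := by
      intro z q hq hh
      obtain ⟨z', p, hz', hp, -⟩ := exists_first q _ hh
      obtain ⟨t, ht, htT⟩ := hT a ha z' hz' p
      exact ⟨t, hq t (hp t ht), htT⟩
    rcases hdel w with ⟨q, hq⟩ | ⟨z, hz, q, hq⟩
    · obtain ⟨t, ht, hts⟩ := hCD a ha b hb q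
      exact key q (fun t ht => hq ▸ ht) ⟨t, ht, Finset.mem_insert_of_mem hts⟩
    · by_cases hh : ∃ t ∈ q.support, t ∈ (↑(insert c S) : Set V)
      · exact key q hq hh
      · push Not at hh
        refine absurd ⟨q, fun t ht hts => hh t ht (Finset.mem_insert_of_mem hts)⟩
          (hno a ha z hz fun e => hh z q.end_mem_support (by rw [e]; exact Finset.mem_insert_self _ _))
  have hnoA : ∀ a ∈ A, ∀ z, (z = x ∨ z = y) → z ≠ x → ¬ Reach G' {t | t ∉ S} a z := by
    rintro a ha z (rfl | rfl) hne hr
    · exact hne rfl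
    · exact hyA ⟨a, ha, hr⟩
  have hnoB : ∀ b ∈ B, ∀ z, (z = x ∨ z = y) → z ≠ y → ¬ Reach G' {t | t ∉ S} b z := by
    rintro b hb z (rfl | rfl) hne hr
    · obtain ⟨a, ha, har⟩ := hxA
      exact hB b hb ⟨a, ha, har.trans hr.symm⟩
    · exact hne rfl
  have hTA : ∀ T : Finset V, Separates G' A ↑(insert x S) T → k ≤ T.card := fun T hT =>
    h T (hcut x A B T hS hnoA hT)
  have hTB : ∀ T : Finset V, Separates G' B ↑(insert y S) T → k ≤ T.card := fun T hT =>
    h T (hcut y B A T hS.symm hnoB hT).symm
  have cardx : (insert x S).card = k := le_antisymm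
    ((Finset.card_insert_le _ _).trans (by omega))
    (hTA _ fun _ _ b hb w => ⟨b, w.end_mem_support, hb⟩)
  have cardy : (insert y S).card = k := le_antisymm
    ((Finset.card_insert_le _ _).trans (by omega))
    (hTB _ fun _ _ b hb w => ⟨b, w.end_mem_support, hb⟩)
  have hyS : y ∉ S := fun hy => by
    rw [Finset.insert_eq_of_mem hy] at cardy
    omega
  -- trimming
  have trim : ∀ (C : Set V) (c : V), Linked' G' C ↑(insert c S) k →
      (insert c S).card = k →
      ∃ (a s : Fin k → V) (p : ∀ i, G'.Walk (a i) (s i)), (∀ i, a i ∈ C) ∧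
        Function.Injective s ∧ (∀ v ∈ insert c S, ∃ i, s i = v) ∧
        (∀ i j, i ≠ j → ∀ t ∈ (p i).support, t ∉ (p j).support) ∧
        ∀ i, ∀ t ∈ (p i).support, t ≠ s i → t ≠ c ∧ t ∉ S ∧ Reach G' {t | t ∉ S} (a i) t := by
    intro C c hL hc
    obtain ⟨a, b, w, hab, hd⟩ := hL
    choose s p hs hp hp' using fun i => exists_first (w i) (↑(insert c S) : Set V)
      ⟨b i, (w i).end_mem_support, (hab i).2⟩
    have hinj : Function.Injective s := fun i j e => by
      by_contra hij
      exact hd i j hij (s i) (hp i _ (p i).end_mem_support)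
        (e ▸ hp j _ (p j).end_mem_support)
    refine ⟨a, s, p, fun i => (hab i).1, hinj, ?_, fun i j hij t ht ht' =>
      hd i j hij t (hp i t ht) (hp j t ht'), ?_⟩
    · have himg : Finset.univ.image s = insert c S := by
        refine Finset.eq_of_subset_of_card_le ?_ ?_
        · intro v hv
          obtain ⟨i, -, rfl⟩ := Finset.mem_image.1 hv
          exact hs i
        · rw [hc, Finset.card_image_of_injective _ hinj, Finset.card_univ, Fintype.card_fin]
      intro v hv
      rw [← himg, Finset.mem_image] at hv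
      obtain ⟨i, -, hi⟩ := hv
      exact ⟨i, hi⟩
    · intro i t ht hne
      have hr := hp' i t ht hne
      have hm := hr.mem_right.2
      simp only [Finset.coe_insert, Set.mem_insert_iff, Finset.mem_coe, not_or] at hm
      exact ⟨hm.1, hm.2, hr.mono fun v hv hvS => hv.2 (Finset.mem_insert_of_mem hvS)⟩
  obtain ⟨a, s, p, ha, hsinj, hssurj, hpd, hpi⟩ :=
    trim A x (ih G'.edgeFinset.card hcard G' A _ k hTA (congrArg Finset.card (Finset.ext fun e => by simp only [mem_edgeFinset]))) cardx
  obtain ⟨b, r, q, hb, hrinj, hrsurj, hqd, hqi⟩ :=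
    trim B y (ih G'.edgeFinset.card hcard G' B _ k hTB (congrArg Finset.card (Finset.ext fun e => by simp only [mem_edgeFinset]))) cardy
  have hsmem : ∀ i, s i ∈ insert x S := by
    intro i
    have himg : Finset.univ.image s = insert x S := by
      refine (Finset.eq_of_subset_of_card_le ?_ ?_).symm
      · intro v hv
        obtain ⟨j, rfl⟩ := hssurj v hv
        exact Finset.mem_image_of_mem _ (Finset.mem_univ _)
      · rw [cardx, Finset.card_image_of_injective _ hsinj, Finset.card_univ, Fintype.card_fin]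
    rw [← himg]
    exact Finset.mem_image_of_mem _ (Finset.mem_univ _)
  let φ : V → V := fun v => if v = x then y else v
  have hφ : ∀ v ∈ insert x S, φ v ∈ insert y S := by
    intro v hv
    rcases Finset.mem_insert.1 hv with rfl | hv
    · simp [φ]
    · simp [φ, show v ≠ x from fun e => hxS (e ▸ hv), hv]
  have hφinj : ∀ u ∈ insert x S, ∀ v ∈ insert x S, φ u = φ v → u = v := by
    intro u hu v hv he
    simp only [φ] at he
    split_ifs at he with h1 h2 h2
    · rw [h1, h2]
    · exact absurd (he ▸ (Finset.mem_insert.1 hv).resolve_left h2) hyS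
    · exact absurd (he ▸ (Finset.mem_insert.1 hu).resolve_left h1) hyS
    · exact he
  choose j hj using fun i => hrsurj (φ (s i)) (hφ _ (hsmem i))
  have hjinj : Function.Injective j := fun i i' e => hsinj (hφinj _ (hsmem i) _ (hsmem i')
    (by rw [← hj i, ← hj i', e]))
  have hjoin : ∀ i, ∃ w : G.Walk (a i) (b (j i)),
      ∀ t ∈ w.support, t ∈ (p i).support ∨ t ∈ (q (j i)).support := by
    intro i
    by_cases hsx : s i = x
    · have hr : r (j i) = y := by rw [hj i]; simp [φ, hsx]
      refine ⟨((p i).mapLe hle).append (Walk.cons (by rw [hsx, hr]; exact hadj)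
        ((q (j i)).reverse.mapLe hle)), fun t ht => ?_⟩
      simp only [Walk.mem_support_append_iff, Walk.support_cons, List.mem_cons,
        Walk.support_mapLe_eq_support, Walk.support_reverse, List.mem_reverse] at ht
      rcases ht with ht | rfl | ht
      · exact Or.inl ht
      · exact Or.inl (p i).end_mem_support
      · exact Or.inr ht
    · have hr : r (j i) = s i := by rw [hj i]; simp [φ, hsx]
      refine ⟨((p i).mapLe hle).append (((q (j i)).reverse.mapLe hle).copy hr rfl),
        fun t ht => ?_⟩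
      simpa [Walk.mem_support_append_iff] using ht
  choose w hw using hjoin
  have cross : ∀ i i', i ≠ i' → ∀ t ∈ (p i).support, t ∉ (q (j i')).support := by
    intro i i' hii t ht ht'
    by_cases h1 : t = s i
    · by_cases h2 : t = r (j i')
      · rw [hj i'] at h2
        by_cases hx' : t = x
        · rcases Finset.mem_insert.1 (hφ _ (hsmem i')) with e | e
          · exact hadj.ne (hx'.symm.trans (h2.trans e))
          · exact hxS (hx' ▸ h2 ▸ e)
        · refine hii (hsinj (hφinj _ (hsmem i) _ (hsmem i') ?_))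
          rw [← h2, show φ (s i) = t by simp [φ, ← h1, hx']]
      · obtain ⟨-, hts, hr⟩ := hqi (j i') t ht' h2
        rcases Finset.mem_insert.1 (h1 ▸ hsmem i) with rfl | hts'
        · obtain ⟨a', ha', har⟩ := hxA
          exact hB _ (hb (j i')) ⟨a', ha', har.trans hr.symm⟩
        · exact hts hts'
    · obtain ⟨htx, hts, hr⟩ := hpi i t ht h1
      by_cases h2 : t = r (j i')
      · have h3 := hj i' ▸ hφ _ (hsmem i')
        rw [← h2] at h3
        rcases Finset.mem_insert.1 h3 with e | e
        · exact hyA ⟨a i, ha i, e ▸ hr⟩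
        · exact hts e
      · obtain ⟨-, -, hr'⟩ := hqi (j i') t ht' h2
        exact hB _ (hb (j i')) ⟨a i, ha i, hr.trans hr'.symm⟩
  refine ⟨a, fun i => b (j i), w, fun i => ⟨ha i, hb (j i)⟩, fun i i' hii t ht ht' => ?_⟩
  rcases hw i t ht with h1 | h1 <;> rcases hw i' t ht' with h2 | h2
  · exact hpd i i' hii t h1 h2
  · exact cross i i' hii t h1 h2
  · exact cross i' i (Ne.symm hii) t h2 h1
  · exact hqd _ _ (fun e => hii (hjinj e)) t h1 h2

end Vale.Agent.P235
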