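import Vale.Agent.P235.Apex
import Vale.Agent.P235.Linkage

/-!
The `L₁` distortion of a graph is at most the largest distortion of a block.
-/

namespace Vale.Agent.P235

open SimpleGraph

theorem pathDist_hom_le {α β : Type} {H : SimpleGraph α} {H' : SimpleGraph β} {ℓ : Sym2 β → ℝ}
    (hℓ : ∀ e ∈ H'.edgeSet, 0 < ℓ e) (f : H →g H') {x y : α} (h : H.Reachable x y) :
    pathDist H' ℓ (f x) (f y) ≤ pathDist H (ℓ ∘ Sym2.map f) x y := by
  refine le_pathDist h fun w => (pathDist_le hℓ (w.map f)).trans (le_of_eq ?_)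
  simp only [walkLen, Walk.edges_map, List.map_map]

theorem pos_hom {α β : Type} {H : SimpleGraph α} {H' : SimpleGraph β} {ℓ : Sym2 β → ℝ}
    (hℓ : ∀ e ∈ H'.edgeSet, 0 < ℓ e) (f : H →g H') :
    ∀ e ∈ H.edgeSet, 0 < (ℓ ∘ Sym2.map f) e := by
  intro e he
  induction e with
  | h a b => exact hℓ _ (f.map_adj (by simpa using he))

theorem c1Le_iso {α β : Type} {H : SimpleGraph α} {H' : SimpleGraph β} (e : H ≃g H') {C : ℝ}
    (h : C1Le H' C) : C1Le H C := by
  intro ℓ hℓ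
  obtain ⟨N, f, hf⟩ := h (ℓ ∘ Sym2.map e.symm) (pos_hom hℓ e.symm.toHom)
  refine ⟨N, fun x => f (e x), fun x y hxy => ?_⟩
  have hxy' : H'.Reachable (e x) (e y) := hxy.map e.toHom
  have e1 : pathDist H' (ℓ ∘ Sym2.map e.symm) (e x) (e y) = pathDist H ℓ x y := by
    refine le_antisymm ?_ ?_
    · have h1 := pathDist_hom_le (pos_hom hℓ e.symm.toHom) e.toHom hxy
      have h2 : (ℓ ∘ Sym2.map e.symm.toHom) ∘ Sym2.map e.toHom = ℓ := by
        funext z
        induction z with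
        | h a b => simp
      rw [h2] at h1
      exact h1
    · have h1 := pathDist_hom_le hℓ e.symm.toHom hxy'
      have h2 : ∀ z, e.symm.toHom (e z) = z := fun z => e.symm_apply_apply z
      rw [h2, h2] at h1
      exact h1
  rw [← e1]
  exact hf (e x) (e y) hxy'

/-- Gluing two graphs along retractions under which every edge survives on one side only. -/
theorem c1Le_glue {α β γ : Type} [Fintype α] {H : SimpleGraph α} {H₁ : SimpleGraph β}
    {H₂ : SimpleGraph γ} {C : ℝ} (hC : 1 ≤ C) (h₁ : C1Le H₁ C) (h₂ : C1Le H₂ C)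
    (i₁ : H₁ →g H) (i₂ : H₂ →g H) (r₁ : α → β) (r₂ : α → γ)
    (step : ∀ a b, H.Adj a b →
      (H₁.Adj (r₁ a) (r₁ b) ∧ i₁ (r₁ a) = a ∧ i₁ (r₁ b) = b ∧ r₂ a = r₂ b) ∨
      (H₂.Adj (r₂ a) (r₂ b) ∧ i₂ (r₂ a) = a ∧ i₂ (r₂ b) = b ∧ r₁ a = r₁ b))
    (low : ∀ x y, H.Reachable x y →
      (i₁ (r₁ x) = x ∧ i₁ (r₁ y) = y) ∨ (i₂ (r₂ x) = x ∧ i₂ (r₂ y) = y) ∨
      (i₁ (r₁ x) = x ∧ i₂ (r₂ y) = y ∧ i₁ (r₁ y) = i₂ (r₂ x)) ∨
      (i₂ (r₂ x) = x ∧ i₁ (r₁ y) = y ∧ i₂ (r₂ y) = i₁ (r₁ x))) : C1Le H C := by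
  refine c1Le_of_fintype fun ℓ hℓ => ?_
  have hℓ₁ := pos_hom hℓ i₁
  have hℓ₂ := pos_hom hℓ i₂
  obtain ⟨N₁, f₁, hf₁⟩ := h₁ _ hℓ₁
  obtain ⟨N₂, f₂, hf₂⟩ := h₂ _ hℓ₂
  have proj : ∀ {x y : α} (w : H.Walk x y), ∃ (p : H₁.Walk (r₁ x) (r₁ y))
      (q : H₂.Walk (r₂ x) (r₂ y)),
      walkLen (ℓ ∘ Sym2.map i₁) p + walkLen (ℓ ∘ Sym2.map i₂) q ≤ walkLen ℓ w := by
    intro x y w
    induction w with
    | nil => exact ⟨Walk.nil, Walk.nil, by simp [walkLen]⟩
    | @cons a b c hab w ih =>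
      obtain ⟨p, q, hpq⟩ := ih
      rcases step a b hab with ⟨hadj, ha, hb, heq⟩ | ⟨hadj, ha, hb, heq⟩
      · refine ⟨Walk.cons hadj p, q.copy heq.symm rfl, ?_⟩
        simp only [walkLen, Walk.edges_cons, List.map_cons, List.sum_cons, Walk.edges_copy,
          Function.comp_apply, Sym2.map_mk, ha, hb] at hpq ⊢
        linarith
      · refine ⟨p.copy heq.symm rfl, Walk.cons hadj q, ?_⟩
        simp only [walkLen, Walk.edges_cons, List.map_cons, List.sum_cons, Walk.edges_copy,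
          Function.comp_apply, Sym2.map_mk, ha, hb] at hpq ⊢
        linarith
  refine ⟨Fin N₁ ⊕ Fin N₂, inferInstance, fun x => Sum.elim (f₁ (r₁ x)) (f₂ (r₂ x)),
    fun x y hxy => ?_⟩
  rw [Fintype.sum_sum_type]
  simp only [Sum.elim_inl, Sum.elim_inr]
  obtain ⟨w⟩ := hxy
  obtain ⟨p, q, -⟩ := proj w
  obtain ⟨l₁, u₁⟩ := hf₁ _ _ ⟨p⟩
  obtain ⟨l₂, u₂⟩ := hf₂ _ _ ⟨q⟩
  constructor
  · refine le_trans ?_ (add_le_add l₁ l₂)
    have g₁ := pathDist_hom_le hℓ i₁ ⟨p⟩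
    have g₂ := pathDist_hom_le hℓ i₂ ⟨q⟩
    have n₁ := pathDist_nonneg hℓ₁ (r₁ x) (r₁ y)
    have n₂ := pathDist_nonneg hℓ₂ (r₂ x) (r₂ y)
    rcases low x y ⟨w⟩ with ⟨hx, hy⟩ | ⟨hx, hy⟩ | ⟨hx, hy, he⟩ | ⟨hx, hy, he⟩
    · rw [hx, hy] at g₁; linarith
    · rw [hx, hy] at g₂; linarith
    · have t := pathDist_triangle hℓ (Reachable.map i₁ ⟨p⟩) (z := i₂ (r₂ y))
        (by rw [he]; exact Reachable.map i₂ ⟨q⟩)
      rw [he] at g₁ t
      rw [hy] at g₂ t
      rw [hx] at g₁ t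
      linarith
    · have t := pathDist_triangle hℓ (Reachable.map i₂ ⟨q⟩) (z := i₁ (r₁ y))
        (by rw [he]; exact Reachable.map i₁ ⟨p⟩)
      rw [he] at g₂ t
      rw [hy] at g₁ t
      rw [hx] at g₂ t
      linarith
  · refine (add_le_add u₁ u₂).trans ?_
    rw [← mul_add]
    refine mul_le_mul_of_nonneg_left (le_pathDist ⟨w⟩ fun w' => ?_) (by linarith)
    obtain ⟨p', q', h'⟩ := proj w'
    linarith [pathDist_le hℓ₁ p', pathDist_le hℓ₂ q']

theorem reach_of_reachable_induce {V : Type} {G : SimpleGraph V} {s : Set V} {x y : ↥s}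
    (h : (G.induce s).Reachable x y) : Reach G s x y := by
  obtain ⟨w⟩ := h
  induction w with
  | nil => exact Reach.refl (Subtype.prop _)
  | @cons a b c hab q ih => exact (Reach.of_adj a.2 b.2 hab).trans ih

/-- If every block inside `U` has distortion at most `C`, so has `U`. -/
theorem c1Le_blocks {V : Type} [Fintype V] (G : SimpleGraph V) {C : ℝ} (hC : 1 ≤ C) (U : Finset V)
    (h : ∀ B : Finset V, B ⊆ U → Block G (B : Set V) → C1Le (G.induce (B : Set V)) C) :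
    C1Le (G.induce (U : Set V)) C := by
  classical
  induction U using Finset.strongInduction with
  | H U ih =>
  by_cases hU : Block G (U : Set V)
  · exact h U (Finset.Subset.refl U) hU
  -- two proper parts and retractions onto them
  obtain ⟨U₁, U₂, z₁, z₂, h1, h2, hz₁, hz₂, hcov, hedge, hlow⟩ :
      ∃ (U₁ U₂ : Finset V) (z₁ z₂ : V), U₁ ⊂ U ∧ U₂ ⊂ U ∧ z₁ ∈ U₁ ∧ z₂ ∈ U₂ ∧
        (∀ t ∈ U, t ∈ U₁ ∨ t ∈ U₂) ∧
        (∀ a ∈ U, ∀ b ∈ U, G.Adj a b →
          (a ∈ U₁ ∧ b ∈ U₁ ∧ (if a ∈ U₂ then a else z₂) = (if b ∈ U₂ then b else z₂)) ∨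
          (a ∈ U₂ ∧ b ∈ U₂ ∧ (if a ∈ U₁ then a else z₁) = (if b ∈ U₁ then b else z₁))) ∧
        (∀ a ∈ U, ∀ b ∈ U, a ∉ U₂ → b ∉ U₁ → Reach G (U : Set V) a b → z₁ = z₂) := by
    unfold Block at hU
    rw [not_and_or] at hU
    rcases hU with hU | hU
    · unfold ConnIn at hU
      push Not at hU
      obtain ⟨x, hx, y, hy, hxy⟩ := hU
      have hx' : x ∈ U := hx
      have hy' : y ∈ U := hy
      refine ⟨U.filter fun t => Reach G (U : Set V) x t, U.filter fun t => ¬ Reach G (U : Set V) x t,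
        x, y, ?_, ?_, by simp [hx', Reach.refl hx], by simp [hy', hxy], ?_, ?_, ?_⟩
      · exact (Finset.ssubset_iff_of_subset (Finset.filter_subset _ _)).2
          ⟨y, hy', by simp [hxy]⟩
      · exact (Finset.ssubset_iff_of_subset (Finset.filter_subset _ _)).2
          ⟨x, hx', by simp [Reach.refl hx]⟩
      · intro t ht
        by_cases hr : Reach G (U : Set V) x t <;> simp [ht, hr]
      · intro a ha b hb hab
        by_cases hr : Reach G (U : Set V) x a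
        · have hrb := hr.trans (Reach.of_adj ha hb hab)
          exact Or.inl (by simp [ha, hb, hr, hrb])
        · have hrb : ¬ Reach G (U : Set V) x b := fun h' =>
            hr (h'.trans (Reach.of_adj hb ha hab.symm))
          exact Or.inr (by simp [ha, hb, hr, hrb])
      · intro a ha b hb ha2 hb1 hr
        simp [ha] at ha2
        simp [hb] at hb1
        exact absurd (ha2.trans hr) hb1
    · push Not at hU
      obtain ⟨z, hz, hU⟩ := hU
      unfold ConnIn at hU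
      push Not at hU
      obtain ⟨x, hx, y, hy, hxy⟩ := hU
      have hxU : x ∈ U := hx.1
      have hyU : y ∈ U := hy.1
      have hxz : x ≠ z := fun e => hx.2 e
      have hyz : y ≠ z := fun e => hy.2 e
      have hzU : z ∈ U := hz
      refine ⟨U.filter fun t => t = z ∨ Reach G ((U : Set V) \ {z}) x t,
        U.filter fun t => t = z ∨ ¬ Reach G ((U : Set V) \ {z}) x t, z, z, ?_, ?_,
        by simp [hzU], by simp [hzU], ?_, ?_, fun _ _ _ _ _ _ _ => rfl⟩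
      · exact (Finset.ssubset_iff_of_subset (Finset.filter_subset _ _)).2
          ⟨y, hyU, by simp [hxy, hyz]⟩
      · exact (Finset.ssubset_iff_of_subset (Finset.filter_subset _ _)).2
          ⟨x, hxU, by simp [Reach.refl hx, hxz]⟩
      · intro t ht
        by_cases hr : Reach G ((U : Set V) \ {z}) x t <;> simp [ht, hr]
      · intro a ha b hb hab
        by_cases haz : a = z
        · subst haz
          by_cases hrb : Reach G ((U : Set V) \ {a}) x b
          · exact Or.inl (by simp [ha, hb, hrb, hab.ne.symm])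
          · exact Or.inr (by simp [ha, hb, hrb, hab.ne.symm])
        by_cases hbz : b = z
        · subst hbz
          by_cases hra : Reach G ((U : Set V) \ {b}) x a
          · exact Or.inl (by simp [ha, hb, hra, hab.ne])
          · exact Or.inr (by simp [ha, hb, hra, hab.ne])
        have hadj : Reach G ((U : Set V) \ {z}) a b :=
          Reach.of_adj ⟨ha, haz⟩ ⟨hb, hbz⟩ hab
        by_cases hr : Reach G ((U : Set V) \ {z}) x a
        · exact Or.inl (by simp [ha, hb, hr, hr.trans hadj, haz, hbz])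
        · have hrb : ¬ Reach G ((U : Set V) \ {z}) x b := fun h' => hr (h'.trans hadj.symm)
          exact Or.inr (by simp [ha, hb, hr, hrb, haz, hbz])
  have hC₁ := ih U₁ h1 fun B hB hb => h B (hB.trans h1.1) hb
  have hC₂ := ih U₂ h2 fun B hB hb => h B (hB.trans h2.1) hb
  let i₁ : G.induce (U₁ : Set V) →g G.induce (U : Set V) :=
    ⟨fun t => ⟨t.1, h1.1 t.2⟩, fun h => h⟩
  let i₂ : G.induce (U₂ : Set V) →g G.induce (U : Set V) :=
    ⟨fun t => ⟨t.1, h2.1 t.2⟩, fun h => h⟩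
  let r₁ : ↥(U : Set V) → ↥(U₁ : Set V) := fun t =>
    ⟨if t.1 ∈ U₁ then t.1 else z₁, by split_ifs with ht; exacts [ht, hz₁]⟩
  let r₂ : ↥(U : Set V) → ↥(U₂ : Set V) := fun t =>
    ⟨if t.1 ∈ U₂ then t.1 else z₂, by split_ifs with ht; exacts [ht, hz₂]⟩
  have e₁ : ∀ t : ↥(U : Set V), t.1 ∈ U₁ → i₁ (r₁ t) = t := fun t ht =>
    Subtype.ext (by simp [i₁, r₁, ht])
  have e₂ : ∀ t : ↥(U : Set V), t.1 ∈ U₂ → i₂ (r₂ t) = t := fun t ht =>
    Subtype.ext (by simp [i₂, r₂, ht])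
  refine c1Le_glue hC hC₁ hC₂ i₁ i₂ r₁ r₂ ?_ ?_
  · rintro a b hab
    rcases hedge a a.2 b b.2 hab with ⟨ha, hb, he⟩ | ⟨ha, hb, he⟩
    · refine Or.inl ⟨?_, e₁ a ha, e₁ b hb, Subtype.ext he⟩
      simpa [r₁, ha, hb] using hab
    · refine Or.inr ⟨?_, e₂ a ha, e₂ b hb, Subtype.ext he⟩
      simpa [r₂, ha, hb] using hab
  · rintro a b hab
    by_cases haU : a.1 ∈ U₁
    · by_cases hbU : b.1 ∈ U₁
      · exact Or.inl ⟨e₁ a haU, e₁ b hbU⟩
      have hb2 := (hcov b b.2).resolve_left hbU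
      by_cases ha2 : a.1 ∈ U₂
      · exact Or.inr (Or.inl ⟨e₂ a ha2, e₂ b hb2⟩)
      refine Or.inr (Or.inr (Or.inl ⟨e₁ a haU, e₂ b hb2, Subtype.ext ?_⟩))
      simpa [i₁, i₂, r₁, r₂, hbU, ha2] using
        hlow a a.2 b b.2 ha2 hbU (reach_of_reachable_induce hab)
    · have ha2 := (hcov a a.2).resolve_left haU
      by_cases hb2 : b.1 ∈ U₂
      · exact Or.inr (Or.inl ⟨e₂ a ha2, e₂ b hb2⟩)
      have hbU := (hcov b b.2).resolve_right hb2
      refine Or.inr (Or.inr (Or.inr ⟨e₂ a ha2, e₁ b hbU, Subtype.ext ?_⟩))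
      simpa [i₁, i₂, r₁, r₂, haU, hb2] using
        (hlow b b.2 a a.2 hb2 haU (reach_of_reachable_induce hab.symm)).symm

end Vale.Agent.P235
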