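import Vale.Agent.P235.Rungs

/-!
Without a large ladder minor, a family of connected sets without many disjoint members has a
bounded hitting set.
-/

namespace Vale.Agent.P235

open SimpleGraph

variable {V : Type} [Fintype V] {G : SimpleGraph V}

/-- `t` vertices suffice to meet every member of `F`. -/
def HitsIn (F : Finset V → Prop) (t : ℕ) : Prop :=
  ∃ Z : Finset V, Z.card ≤ t ∧ ∀ M, F M → ∃ z ∈ M, z ∈ Z

/-- The members meeting a list. -/
def Meeting (F : Finset V → Prop) (Q : List V) (M : Finset V) : Prop :=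
  F M ∧ ∃ z ∈ M, z ∈ Q

/-- No `k + 1` members are pairwise disjoint. -/
def FewDisjoint (F : Finset V → Prop) (k : ℕ) : Prop :=
  ∀ M : Fin (k + 1) → Finset V, (∀ i, F (M i)) →
    ¬ ∀ i j, i ≠ j → Disjoint (M i : Set V) (M j : Set V)

omit [Fintype V] in
theorem hitsIn_zero (F : Finset V → Prop) : HitsIn (Meeting F []) 0 :=
  ⟨∅, le_rfl, fun M hM => by simp [Meeting] at hM⟩

omit [Fintype V] in
theorem hitsIn_mono {F F' : Finset V → Prop} {s t : ℕ} (h : HitsIn F s) (hst : s ≤ t)
    (hF : ∀ M, F' M → F M) : HitsIn F' t := by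
  obtain ⟨Z, hZ, h⟩ := h
  exact ⟨Z, hZ.trans hst, fun M hM => h M (hF M hM)⟩

omit [Fintype V] in
theorem hitsIn_cons {F : Finset V → Prop} {Q : List V} {t : ℕ} (x : V)
    (h : HitsIn (Meeting F Q) t) : HitsIn (Meeting F (x :: Q)) (t + 1) := by
  classical
  obtain ⟨Z, hZ, h⟩ := h
  refine ⟨insert x Z, (Finset.card_insert_le _ _).trans (by omega), fun M hM => ?_⟩
  obtain ⟨hF, z, hz, hzQ⟩ := hM
  rcases List.mem_cons.1 hzQ with rfl | hzQ
  · exact ⟨z, hz, Finset.mem_insert_self _ _⟩
  · obtain ⟨u, hu, huZ⟩ := h M ⟨hF, z, hz, hzQ⟩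
    exact ⟨u, hu, Finset.mem_insert_of_mem huZ⟩

omit [Fintype V] in
theorem hitsIn_append {F : Finset V → Prop} {P Q : List V} {s t : ℕ}
    (h : HitsIn (Meeting F P) s) (h' : HitsIn (Meeting F Q) t) :
    HitsIn (Meeting F (P ++ Q)) (s + t) := by
  classical
  obtain ⟨Z, hZ, h⟩ := h
  obtain ⟨Z', hZ', h'⟩ := h'
  refine ⟨Z ∪ Z', (Finset.card_union_le _ _).trans (by omega), fun M hM => ?_⟩
  obtain ⟨hF, z, hz, hzQ⟩ := hM
  rcases List.mem_append.1 hzQ with hzQ | hzQ
  · obtain ⟨u, hu, huZ⟩ := h M ⟨hF, z, hz, hzQ⟩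
    exact ⟨u, hu, Finset.mem_union_left _ huZ⟩
  · obtain ⟨u, hu, huZ⟩ := h' M ⟨hF, z, hz, hzQ⟩
    exact ⟨u, hu, Finset.mem_union_right _ huZ⟩

/-- Either few vertices hit all members meeting a list, or it has many pieces that each need
more than `T` vertices. -/
theorem pieces (F : Finset V → Prop) (T : ℕ) :
    ∀ (L : List V) (j : ℕ), HitsIn (Meeting F L) ((j + 1) * (T + 1)) ∨
      ∃ Q : Fin (j + 1) → List V, (∀ i, Q i <:+: L) ∧
        (∀ i, ¬ HitsIn (Meeting F (Q i)) T) ∧
        (L.Nodup → ∀ i i', i ≠ i' → (Q i).Disjoint (Q i')) := by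
  intro L j
  induction j generalizing L with
  | zero =>
    by_cases h : HitsIn (Meeting F L) T
    · exact Or.inl (hitsIn_mono h (by omega) fun M hM => hM)
    · exact Or.inr ⟨fun _ => L, fun _ => List.infix_refl L, fun _ => h,
        fun _ i i' hne => absurd (Fin.ext (by omega)) hne⟩
  | succ j ih =>
    by_cases h : HitsIn (Meeting F L) T
    · refine Or.inl (hitsIn_mono h ?_ fun M hM => hM)
      calc T ≤ 1 * (T + 1) := by omega
        _ ≤ _ := Nat.mul_le_mul_right _ (by omega)
    -- the shortest prefix that needs more than `T`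
    have hex : ∃ c, ¬ HitsIn (Meeting F (L.take c)) T := ⟨L.length, by simpa using h⟩
    classical
    have hc := Nat.find_spec hex
    set c := Nat.find hex with hcdef
    have hc0 : c ≠ 0 := fun e => hc (by rw [e, List.take_zero]; exact hitsIn_mono (hitsIn_zero F) (Nat.zero_le _) fun M hM => hM)
    have hpre : HitsIn (Meeting F (L.take c)) (T + 1) := by
      have hprev : HitsIn (Meeting F (L.take (c - 1))) T := by
        by_contra hh
        exact Nat.find_min hex (show c - 1 < c by omega) hh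
      by_cases hlt : c - 1 < L.length
      · have e : L.take c = L.take (c - 1) ++ [L[c - 1]] := by
          rw [List.take_append_getElem hlt]; congr 1; omega
        rw [e]
        exact hitsIn_append hprev (by simpa using hitsIn_cons L[c - 1] (hitsIn_zero F))
      · rw [List.take_of_length_le (by omega)]
        rw [List.take_of_length_le (by omega)] at hprev
        exact absurd hprev h
    rcases ih (L.drop c) with hd | ⟨Q, hQ, hQT, hQd⟩
    · left
      have := hitsIn_append hpre hd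
      rw [List.take_append_drop] at this
      exact hitsIn_mono this (le_of_eq (by ring)) fun M hM => hM
    · refine Or.inr ⟨Fin.cons (L.take c) Q, ?_, ?_, ?_⟩
      · intro i
        refine Fin.cases ?_ (fun i => ?_) i
        · exact (List.take_prefix c L).isInfix
        · exact (hQ i).trans (List.drop_suffix c L).isInfix
      · intro i
        refine Fin.cases ?_ (fun i => ?_) i
        · exact hc
        · exact hQT i
      · intro hL i i' hne
        have hdis : (L.take c).Disjoint (L.drop c) := List.disjoint_take_drop hL le_rfl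
        revert hne
        refine Fin.cases ?_ (fun a => ?_) i <;> refine Fin.cases ?_ (fun b => ?_) i' <;> intro hne
        · exact absurd rfl hne
        · exact fun z h1 h2 => hdis h1 ((hQ b).subset h2)
        · exact fun z h1 h2 => hdis h2 ((hQ a).subset h1)
        · exact hQd (hL.sublist (List.drop_sublist c L)) a b fun e => hne (by rw [e])

/-- Without a ladder minor, the members meeting one path are hit by few vertices. -/
theorem hitsIn_path {n k : ℕ}
    (hG : ¬ HasMinor G ((pathGraph 2).boxProd (pathGraph n)))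
    {F : Finset V → Prop} (hF : ∀ M, F M → ConnIn G (M : Set V)) (hk : FewDisjoint F k)
    {L : List V} (hL : IsPathList G L) :
    HitsIn (Meeting F L) ((k + 1) * ((k + 1) * (k + 1) * (n * n) + 1)) := by
  classical
  rcases pieces F ((k + 1) * (k + 1) * (n * n)) L k with h | ⟨Q, hQ, hQT, hQd⟩
  · exact h
  exfalso
  have hQp : ∀ i, IsPathList G (Q i) := fun i => by
    refine ⟨?_, hL.2.sublist (hQ i).sublist⟩
    obtain ⟨s, t, e⟩ := hQ i
    have hc := hL.1
    rw [← e] at hc
    exact hc.left_of_append.right_of_append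
  have hsep : ∀ i j, i ≠ j → ∃ S : Finset V, S.card ≤ n * n ∧
      Separates G {z | z ∈ Q i} {z | z ∈ Q j} S := by
    intro i j hij
    by_contra hno
    push Not at hno
    have hlink : Linked' G {z | z ∈ Q i} {z | z ∈ Q j} (n * n) := menger G _ _ _ fun S hS => by
      by_contra hlt
      exact hno S (by omega) hS
    obtain ⟨a, b, w, hab, hd⟩ := hlink
    exact hG (hasMinor_of_meet le_rfl (hQp i) (hQp j) (fun t h1 h2 => hQd hL.2 i j hij h1 h2)
      (fun l => {t | t ∈ (w l).support}) (fun l => connIn_support (w l))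
      (fun l l' hll => Set.disjoint_left.2 fun t ht ht' => hd l l' hll t ht ht')
      (fun l => ⟨a l, (w l).start_mem_support, (hab l).1⟩)
      (fun l => ⟨b l, (w l).end_mem_support, (hab l).2⟩))
  choose S hScard hSsep using hsep
  let Z : Finset V := (Finset.univ : Finset (Fin (k + 1) × Fin (k + 1))).biUnion fun ij =>
    if h : ij.1 ≠ ij.2 then S ij.1 ij.2 h else ∅
  have hZ : Z.card ≤ (k + 1) * (k + 1) * (n * n) := by
    refine (Finset.card_biUnion_le_card_mul _ _ (n * n) fun ij _ => ?_).trans (le_of_eq ?_)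
    · split_ifs
      · exact hScard _ _ _
      · simp
    · simp
  have hfree : ∀ i, ∃ M, Meeting F (Q i) M ∧ ∀ z ∈ M, z ∉ Z := fun i => by
    by_contra hno
    push Not at hno
    exact hQT i ⟨Z, hZ, hno⟩
  choose M hM hMZ using hfree
  refine hk M (fun i => (hM i).1) fun i j hij => Set.disjoint_left.2 fun t ht ht' => ?_
  obtain ⟨x, hx, hxQ⟩ := (hM i).2
  obtain ⟨y, hy, hyQ⟩ := (hM j).2
  have hr : Reach G ((M i : Set V) ∪ M j) x y :=
    ((hF _ (hM i).1 x hx t ht).mono Set.subset_union_left).trans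
      ((hF _ (hM j).1 t ht' y hy).mono Set.subset_union_right)
  obtain ⟨w, hw⟩ := hr
  obtain ⟨z, hz, hzS⟩ := hSsep i j hij x hxQ y hyQ w
  have hzZ : z ∈ Z := Finset.mem_biUnion.2 ⟨(i, j), Finset.mem_univ _, by simp [hij, hzS]⟩
  rcases hw z hz with h | h
  · exact hMZ i z h hzZ
  · exact hMZ j z h hzZ

/-- A region inside which all members share one vertex, entered only through one path. -/
theorem exists_region (F : Finset V → Prop) (hF : ∀ M, F M → ConnIn G (M : Set V))
    (hne : ∀ M, F M → M.Nonempty) :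
    ∀ (C : Finset V) (L : List V) (x : V), x ∈ C → ConnIn G (C : Set V) → IsPathList G L →
      (∀ h ∈ L.head?, G.Adj x h) → (∀ z ∈ L, z ∉ C) →
      (∀ c ∈ C, ∀ d, d ∉ C → G.Adj c d → d ∈ L) →
      (∃ M, F M ∧ M ⊆ C) →
      ∃ (C' : Finset V) (L' : List V) (y : V), IsPathList G L' ∧
        (∀ c ∈ C', ∀ d, d ∉ C' → G.Adj c d → d ∈ L') ∧
        (∃ M, F M ∧ M ⊆ C') ∧ ∀ M, F M → M ⊆ C' → y ∈ M := by
  classical
  intro C
  induction C using Finset.strongInduction with
  | H C ih =>
    intro L x hxC hC hL hhead hdis hN hM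
    by_cases hall : ∀ M, F M → M ⊆ C → x ∈ M
    · exact ⟨C, L, x, hL, hN, hM, hall⟩
    push Not at hall
    obtain ⟨M, hMF, hMC, hxM⟩ := hall
    obtain ⟨m, hm⟩ := hne M hMF
    let R : Set V := {z | z ∈ C ∧ z ≠ x}
    let C' : Finset V := C.filter fun z => Reach G R m z
    have hMR : (M : Set V) ⊆ R := fun z hz => ⟨hMC hz, fun e => hxM (e ▸ hz)⟩
    have hMC' : M ⊆ C' := fun z hz =>
      Finset.mem_filter.2 ⟨hMC hz, (hF M hMF m hm z hz).mono hMR⟩
    have hxC' : x ∉ C' := fun h => ((Finset.mem_filter.1 h).2.mem_right).2 rfl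
    have hsub : C' ⊂ C := (Finset.ssubset_iff_of_subset (Finset.filter_subset _ _)).2 ⟨x, hxC, hxC'⟩
    have hconn : ConnIn G (C' : Set V) := by
      intro a ha b hb
      obtain ⟨w, hw⟩ := (Finset.mem_filter.1 ha).2
      obtain ⟨w', hw'⟩ := (Finset.mem_filter.1 hb).2
      refine ⟨w.reverse.append w', fun t ht => ?_⟩
      rw [Walk.mem_support_append_iff, Walk.support_reverse, List.mem_reverse] at ht
      rcases ht with ht | ht
      · exact Finset.mem_filter.2 ⟨(hw t ht).1, (Reach.of_support w ht).mono hw⟩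
      · exact Finset.mem_filter.2 ⟨(hw' t ht).1, (Reach.of_support w' ht).mono hw'⟩
    obtain ⟨x', hx', hadj⟩ : ∃ x' ∈ C', G.Adj x' x := by
      obtain ⟨w, hw⟩ := hC m (hMC hm) x hxC
      obtain ⟨T, hmT, hT, hTs, hTx, t, ht, b, hb, -, htb⟩ :=
        exists_approach w [x] (fun h => hxM (List.mem_singleton.1 h ▸ hm)) (by simp)
      rw [List.mem_singleton] at hb
      subst hb
      refine ⟨t, Finset.mem_filter.2 ⟨hw t (hTs t ht), ?_⟩, htb⟩
      exact (hT m hmT t ht).mono fun z hz => ⟨hw z (hTs z hz), by simpa using hTx z hz⟩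
    refine ih C' hsub (x :: L) x' hx' hconn ?_ ?_ ?_ ?_ ⟨M, hMF, hMC'⟩
    · exact ⟨List.isChain_cons.2 ⟨hhead, hL.1⟩,
        List.nodup_cons.2 ⟨fun h => hdis x h hxC, hL.2⟩⟩
    · simpa using hadj
    · intro z hz hzC'
      rcases List.mem_cons.1 hz with rfl | hz
      · exact hxC' hzC'
      · exact hdis z hz (Finset.filter_subset _ _ hzC')
    · intro c hc d hd hcd
      obtain ⟨hcC, hcr⟩ := Finset.mem_filter.1 hc
      by_cases hdx : d = x
      · exact List.mem_cons.2 (Or.inl hdx)
      by_cases hdC : d ∈ C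
      · exact absurd (Finset.mem_filter.2 ⟨hdC,
          hcr.trans (Reach.of_adj hcr.mem_right ⟨hdC, hdx⟩ hcd)⟩) hd
      · exact List.mem_cons.2 (Or.inr (hN c hcC d hdC hcd))

/-- Without a ladder minor, few disjoint members mean few vertices hit all members. -/
theorem hitsIn_of_fewDisjoint {n : ℕ}
    (hG : ¬ HasMinor G ((pathGraph 2).boxProd (pathGraph n)))
    (k : ℕ) : ∀ (F : Finset V → Prop), (∀ M, F M → ConnIn G (M : Set V)) →
      (∀ M, F M → M.Nonempty) → FewDisjoint F k →
      HitsIn F (k * (1 + (k + 1) * ((k + 1) * (k + 1) * (n * n) + 1))) := by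
  classical
  induction k with
  | zero =>
    intro F _ _ hk
    refine ⟨∅, by simp, fun M hM => absurd ?_ (hk (fun _ => M) fun _ => hM)⟩
    intro i j hij
    exact absurd (Fin.ext (by omega)) hij
  | succ k ih =>
    intro F hF hne hk
    by_cases hex : ∃ M, F M
    swap
    · exact ⟨∅, by simp, fun M hM => absurd ⟨M, hM⟩ hex⟩
    obtain ⟨M₁, hM₁⟩ := hex
    obtain ⟨m, hm⟩ := hne M₁ hM₁
    let C : Finset V := Finset.univ.filter fun z => Reach G Set.univ m z
    have hC : ConnIn G (C : Set V) := by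
      intro a ha b hb
      obtain ⟨w, -⟩ := ((Finset.mem_filter.1 ha).2.symm.trans (Finset.mem_filter.1 hb).2)
      refine ⟨w, fun t ht => Finset.mem_filter.2 ⟨Finset.mem_univ _, ?_⟩⟩
      exact (Finset.mem_filter.1 ha).2.trans ((Reach.of_support w ht).mono (Set.subset_univ _))
    obtain ⟨C', L', y, hL', hN', ⟨M₀, hM₀, hM₀C⟩, hy⟩ :=
      exists_region F hF hne C [] m (Finset.mem_filter.2 ⟨Finset.mem_univ _, Reach.refl trivial⟩)
        hC ⟨List.isChain_nil, List.nodup_nil⟩ (by simp) (by simp)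
        (fun c hc d hd hcd => absurd (Finset.mem_filter.2 ⟨Finset.mem_univ _,
          (Finset.mem_filter.1 hc).2.trans (Reach.of_adj trivial trivial hcd)⟩) hd)
        ⟨M₁, hM₁, fun z hz => Finset.mem_filter.2 ⟨Finset.mem_univ _,
          (hF M₁ hM₁ m hm z hz).mono (Set.subset_univ _)⟩⟩
    obtain ⟨Z₁, hZ₁, hhit₁⟩ := hitsIn_path hG hF hk hL'
    let F' : Finset V → Prop := fun M => F M ∧ ∀ z ∈ M, z ∉ insert y Z₁
    have hout : ∀ M, F' M → ∀ z ∈ M, z ∉ C' := by
      rintro M ⟨hMF, hMZ⟩ z hz hzC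
      by_cases hsub : M ⊆ C'
      · exact hMZ y (hy M hMF hsub) (Finset.mem_insert_self _ _)
      rw [Finset.not_subset] at hsub
      obtain ⟨u, hu, huC⟩ := hsub
      obtain ⟨w, hw⟩ := hF M hMF z hz u hu
      obtain ⟨d, hd, hdC, hdC'⟩ := w.exists_boundary_dart (C' : Set V) hzC huC
      have hdL := hN' _ hdC d.snd (fun h => hdC' h) d.adj
      obtain ⟨v, hv, hvZ⟩ := hhit₁ M
        ⟨hMF, d.snd, hw _ (w.dart_snd_mem_support_of_mem_darts hd), hdL⟩
      exact hMZ v hv (Finset.mem_insert_of_mem hvZ)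
    have hk' : FewDisjoint F' k := by
      intro M hM hdisj
      refine hk (Fin.cons M₀ M) (fun i => Fin.cases hM₀ (fun j => (hM j).1) i) ?_
      intro i j
      refine Fin.cases ?_ (fun a => ?_) i <;> refine Fin.cases ?_ (fun b => ?_) j <;> intro hne'
      · exact absurd rfl hne'
      · exact Set.disjoint_left.2 fun z h1 h2 => hout _ (hM b) z h2 (hM₀C h1)
      · exact Set.disjoint_left.2 fun z h1 h2 => hout _ (hM a) z h1 (hM₀C h2)
      · exact hdisj a b fun e => hne' (by rw [e])
    obtain ⟨Z₂, hZ₂, hhit₂⟩ := ih F' (fun M hM => hF M hM.1) (fun M hM => hne M hM.1) hk'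
    refine ⟨insert y Z₁ ∪ Z₂, ?_, fun M hM => ?_⟩
    · refine (Finset.card_union_le _ _).trans ?_
      have h1 := Finset.card_insert_le y Z₁
      have h2 : k * (1 + (k + 1) * ((k + 1) * (k + 1) * (n * n) + 1)) ≤
          k * (1 + (k + 1 + 1) * ((k + 1 + 1) * (k + 1 + 1) * (n * n) + 1)) := by
        gcongr <;> omega
      rw [Nat.succ_mul]
      omega
    · by_cases h : ∀ z ∈ M, z ∉ insert y Z₁
      · obtain ⟨z, hz, hz2⟩ := hhit₂ M ⟨hM, h⟩
        exact ⟨z, hz, Finset.mem_union_right _ hz2⟩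
      · push Not at h
        obtain ⟨z, hz, hz2⟩ := h
        exact ⟨z, hz, Finset.mem_union_left _ hz2⟩

end Vale.Agent.P235
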