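import Vale.Agent.P235.Hitting
import Vale.Agent.P235.Glue

/-!
Graphs without a fixed ladder minor have bounded `L₁` distortion: induction on the number of rungs
of ladders rooted at two given vertices, removing boundedly many apices at each step.
-/

namespace Vale.Agent.P235

open SimpleGraph

variable {V : Type} {G : SimpleGraph V}

/-- A ladder inside `U` with `r` rungs, whose rails start at `u` and `v`. -/
def Rooted (G : SimpleGraph V) (U : Set V) (u v : V) (r : ℕ) : Prop :=
  ∃ p q : List V, IsPathList G p ∧ IsPathList G q ∧ (∀ t ∈ p, t ∈ U) ∧ (∀ t ∈ q, t ∈ U) ∧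
    (∀ t ∈ p, t ∉ q) ∧ p.head? = some u ∧ q.head? = some v ∧ Nonempty (Rungs G U p q r)

theorem Rooted.hasMinor {U : Set V} {u v : V} {n : ℕ} (h : Rooted G U u v n) :
    HasMinor G ((pathGraph 2).boxProd (pathGraph n)) := by
  obtain ⟨p, q, hp, hq, -, -, hpq, -, -, ⟨R⟩⟩ := h
  exact R.hasMinor hp hq hpq

theorem rooted_one {U : Set V} (hU : ConnIn G U) {u v : V} (hu : u ∈ U) (hv : v ∈ U)
    (hne : u ≠ v) : Rooted G U u v 1 := by
  obtain ⟨w, hw⟩ := hU u hu v hv
  have hdis : ∀ t ∈ [u], t ∉ [v] := by simpa using hne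
  obtain ⟨T, a, b, ha, hb, h1, h2, h3, h4, h5, h6, -⟩ :=
    exists_rung w [u] [v] hdis ⟨u, w.start_mem_support, by simp⟩ (by simp)
  exact ⟨[u], [v], ⟨List.isChain_singleton u, List.nodup_singleton u⟩,
    ⟨List.isChain_singleton v, List.nodup_singleton v⟩, by simpa using hu, by simpa using hv,
    hdis, rfl, rfl,
    ⟨{ a := fun _ => a, b := fun _ => b, ha := fun _ => ha, hb := fun _ => hb
       amono := fun i j h => absurd h (by omega)
       bmono := fun i j h => absurd h (by omega)
       T := fun _ => T, sub := fun _ t ht => hw t (h2 t ht), conn := fun _ => h1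
       tp := fun _ => h3, mem := fun _ => h4, tq := fun _ => h5, adj := fun _ => h6
       disj := fun i j h => absurd (Fin.ext (by omega)) h }⟩⟩

/-- Splits `P` from `Q` as lists of vertices, for walks ending in `B`. -/
theorem exists_path_first {x y : V} (w : G.Walk x y) (B : Set V) (hy : y ∈ B) :
    ∃ z ∈ B, ∃ l : List V, IsPathList G (l ++ [z]) ∧ (l ++ [z]).head? = some x ∧
      (∀ t ∈ l, t ∈ w.support ∧ t ∉ B) ∧ z ∈ w.support := by
  classical
  obtain ⟨z, p, hz, hp, hp'⟩ := exists_first w B ⟨y, w.end_mem_support, hy⟩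
  refine ⟨z, hz, p.bypass.support.dropLast, ?_, ?_, ?_, hp z p.end_mem_support⟩
  all_goals
    have e : p.bypass.support.dropLast ++ [z] = p.bypass.support := by
      conv_rhs => rw [← List.dropLast_append_getLast p.bypass.support_ne_nil]
      rw [Walk.getLast_support]
  · rw [e]; exact IsPathList.of_path p.bypass_isPath
  · rw [e, List.head?_eq_some_head p.bypass.support_ne_nil, Walk.head_support]
  · intro t ht
    have ht' : t ∈ p.support := p.support_bypass_subset_support (List.mem_of_mem_dropLast ht)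
    have hne : t ≠ z := by
      intro htz
      have hnd := (p.bypass_isPath).support_nodup
      rw [← e, List.nodup_append] at hnd
      exact hnd.2.2 t ht z (by simp) htz
    exact ⟨hp t ht', (hp' t ht' hne).mem_right.2⟩

theorem reach_within {U : Set V} {z a b : V} (h : Reach G (U \ {z}) a b) :
    ∃ w : (within G U).Walk a b, ∀ t ∈ w.support, t ≠ z := by
  obtain ⟨w, hw⟩ := h
  obtain ⟨w', hw'⟩ := walk_within w fun t ht => (hw t ht).1
  exact ⟨w', fun t ht => fun e => (hw t (hw' ▸ ht)).2 e⟩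

/-- Two vertices of a block reach a set of at least two vertices by disjoint paths. -/
theorem exists_fan [Fintype V] {U B : Set V} (hU : Block G U) {u v : V} (hu : u ∈ U) (hv : v ∈ U)
    (hne : u ≠ v) (huB : u ∉ B) (hvB : v ∉ B) (hBU : B ⊆ U) {b₁ b₂ : V} (hb₁ : b₁ ∈ B)
    (hb₂ : b₂ ∈ B) (hb : b₁ ≠ b₂) :
    ∃ (a b : V) (p q : List V), a ∈ B ∧ b ∈ B ∧ a ≠ b ∧ IsPathList G (p ++ [a]) ∧
      IsPathList G (q ++ [b]) ∧ (p ++ [a]).head? = some u ∧ (q ++ [b]).head? = some v ∧
      (∀ t ∈ p, t ∈ U ∧ t ∉ B) ∧ (∀ t ∈ q, t ∈ U ∧ t ∉ B) ∧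
      ∀ t ∈ p ++ [a], t ∉ q ++ [b] := by
  classical
  have hlink : Linked' (within G U) ({u, v} : Set V) B 2 := by
    refine menger _ _ _ 2 fun S hS => ?_
    by_contra hlt
    have hcard : S.card ≤ 1 := by omega
    obtain ⟨z, hzU, hz⟩ : ∃ z ∈ U, ∀ t ∈ S, t ∈ U → t = z := by
      by_cases he : ∃ t ∈ S, t ∈ U
      · obtain ⟨t, ht, htU⟩ := he
        exact ⟨t, htU, fun s hs _ => Finset.card_le_one.1 hcard s hs t ht⟩
      · exact ⟨u, hu, fun t ht htU => absurd ⟨t, ht, htU⟩ he⟩
    obtain ⟨a, ha, haz⟩ : ∃ a ∈ ({u, v} : Set V), a ≠ z := by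
      by_cases h : u = z
      · exact ⟨v, by simp, fun e => hne (h.trans e.symm)⟩
      · exact ⟨u, by simp, h⟩
    obtain ⟨b, hbB, hbz⟩ : ∃ b ∈ B, b ≠ z := by
      by_cases h : b₁ = z
      · exact ⟨b₂, hb₂, fun e => hb (h.trans e.symm)⟩
      · exact ⟨b₁, hb₁, h⟩
    have haU : a ∈ U := by rcases ha with rfl | rfl <;> assumption
    obtain ⟨w, hw⟩ := reach_within (hU.2 z hzU a ⟨haU, haz⟩ b ⟨hBU hbB, hbz⟩)
    obtain ⟨t, ht, htS⟩ := hS a ha b hbB w
    exact hw t ht (hz t htS (within_support haU w t ht))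
  obtain ⟨a, b, w, hab, hd⟩ := hlink
  have haU : ∀ i, a i ∈ U := fun i => by rcases (hab i).1 with h | h <;> rw [h] <;> assumption
  have hane : a 0 ≠ a 1 := fun e =>
    hd 0 1 (by decide) (a 0) (w 0).start_mem_support (by rw [e]; exact (w 1).start_mem_support)
  obtain ⟨i, j, hij, hi, hj⟩ : ∃ i j : Fin 2, i ≠ j ∧ a i = u ∧ a j = v := by
    rcases (hab 0).1 with h0 | h0 <;> rcases (hab 1).1 with h1 | h1
    · exact absurd (h0.trans h1.symm) hane
    · exact ⟨0, 1, by decide, h0, h1⟩
    · exact ⟨1, 0, by decide, h1, h0⟩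
    · exact absurd (h0.trans h1.symm) hane
  have hwU : ∀ i, ∀ t ∈ ((w i).mapLe (within_le U)).support, t ∈ U := fun i t ht =>
    within_support (haU i) (w i) t (by simpa using ht)
  obtain ⟨x, hx, p, hp, hph, hpt, hxs⟩ :=
    exists_path_first ((w i).mapLe (within_le U)) B (hab i).2
  obtain ⟨y, hy, q, hq, hqh, hqt, hys⟩ :=
    exists_path_first ((w j).mapLe (within_le U)) B (hab j).2
  have hp' : ∀ t ∈ p ++ [x], t ∈ (w i).support := fun t ht => by
    rcases List.mem_append.1 ht with h | h
    · simpa using (hpt t h).1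
    · rw [List.mem_singleton.1 h]; simpa using hxs
  have hq' : ∀ t ∈ q ++ [y], t ∈ (w j).support := fun t ht => by
    rcases List.mem_append.1 ht with h | h
    · simpa using (hqt t h).1
    · rw [List.mem_singleton.1 h]; simpa using hys
  refine ⟨x, y, p, q, hx, hy, ?_, hp, hq, hi ▸ hph, hj ▸ hqh,
    fun t ht => ⟨hwU i t (hpt t ht).1, (hpt t ht).2⟩,
    fun t ht => ⟨hwU j t (hqt t ht).1, (hqt t ht).2⟩,
    fun t h1 h2 => hd i j hij t (hp' t h1) (hq' t h2)⟩
  intro e
  exact hd i j hij x (hp' x (by simp)) (e ▸ hq' y (by simp))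

theorem IsPathList.glue {p P : List V} {a : V} (hp : IsPathList G (p ++ [a]))
    (hP : IsPathList G P) (ha : P.head? = some a) (hdis : ∀ t ∈ p, t ∉ P) :
    IsPathList G (p ++ P) := by
  obtain ⟨h, P', rfl⟩ : ∃ h P', P = h :: P' := by
    cases P with
    | nil => simp at ha
    | cons h t => exact ⟨h, t, rfl⟩
  obtain rfl : h = a := by simpa using ha
  refine ⟨List.isChain_append.2 ?_, List.nodup_append.2 ⟨?_, hP.2, fun x hx y hy e => hdis x hx (e ▸ hy)⟩⟩
  · have h1 := List.isChain_append.1 hp.1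
    exact ⟨h1.1, hP.1, fun x hx y hy => h1.2.2 x hx y (by simpa using hy)⟩
  · exact (List.nodup_append.1 hp.2).1

/-- A set avoided by some `u`-`v` walk carries rooted ladders with fewer rungs. -/
theorem rooted_step [Fintype V] {U B : Set V} (hU : Block G U) {u v : V} (hu : u ∈ U) (hv : v ∈ U)
    (hne : u ≠ v) (hBU : B ⊆ U) {b₁ b₂ : V} (hb₁ : b₁ ∈ B) (hb₂ : b₂ ∈ B) (hb : b₁ ≠ b₂)
    {R : G.Walk u v} (hR : ∀ t ∈ R.support, t ∈ U ∧ t ∉ B) :
    ∃ a b, a ∈ B ∧ b ∈ B ∧ a ≠ b ∧ ∀ r, Rooted G B a b r → Rooted G U u v (r + 1) := by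
  obtain ⟨a, b, p, q, ha, hbB, hab, hp, hq, hph, hqh, hpB, hqB, hpq⟩ :=
    exists_fan hU hu hv hne (hR u R.start_mem_support).2 (hR v R.end_mem_support).2 hBU hb₁ hb₂ hb
  have huB := (hR u R.start_mem_support).2
  have hvB := (hR v R.end_mem_support).2
  have hup : u ∈ p := by
    cases p with
    | nil => simp at hph; exact absurd (hph ▸ ha) huB
    | cons h t => simp at hph; simp [hph]
  have hvq : v ∈ q := by
    cases q with
    | nil => simp at hqh; exact absurd (hqh ▸ hbB) hvB
    | cons h t => simp at hqh; simp [hqh]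
  refine ⟨a, b, ha, hbB, hab, ?_⟩
  obtain ⟨T, i, j, hi, hj, hT, hTR, hTp, hiT, hTq, ⟨t, ht, htj⟩, -⟩ :=
    exists_rung R p q (fun t h1 h2 => hpq t (by simp [h1]) (by simp [h2]))
      ⟨u, R.start_mem_support, hup⟩ hvq
  rintro r ⟨P, Q, hP, hQ, hPB, hQB, hPQ, hPh, hQh, ⟨S⟩⟩
  refine ⟨p ++ P, q ++ Q, hp.glue hP hPh fun t h h' => (hpB t h).2 (hPB t h'),
    hq.glue hQ hQh fun t h h' => (hqB t h).2 (hQB t h'), ?_, ?_, ?_, ?_, ?_, ?_⟩
  · intro t ht
    rcases List.mem_append.1 ht with h | h
    exacts [(hpB t h).1, hBU (hPB t h)]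
  · intro t ht
    rcases List.mem_append.1 ht with h | h
    exacts [(hqB t h).1, hBU (hQB t h)]
  · intro t h1 h2
    rcases List.mem_append.1 h1 with h | h <;> rcases List.mem_append.1 h2 with h' | h'
    · exact hpq t (by simp [h]) (by simp [h'])
    · exact (hpB t h).2 (hQB t h')
    · exact (hqB t h').2 (hPB t h)
    · exact hPQ t h h'
  · cases p with
    | nil => simp at hup
    | cons h t => simpa using hph
  · cases q with
    | nil => simp at hvq
    | cons h t => simpa using hqh
  have memB : ∀ k, P[S.a k]'(S.ha k) ∈ B := fun k => hPB _ (List.getElem_mem _)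
  refine ⟨
    { a := Fin.cases i fun k => p.length + S.a k
      b := Fin.cases j fun k => q.length + S.b k
      ha := fun k => ?_
      hb := fun k => ?_
      amono := ?_
      bmono := ?_
      T := Fin.cases T S.T
      sub := fun k => ?_
      conn := fun k => ?_
      tp := fun k => ?_
      mem := fun k => ?_
      tq := fun k => ?_
      adj := fun k => ?_
      disj := fun k l => ?_ }⟩
  · refine Fin.cases ?_ (fun k => ?_) k
    · simp; omega
    · have := S.ha k; simp; omega
  · refine Fin.cases ?_ (fun k => ?_) k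
    · simp; omega
    · have := S.hb k; simp; omega
  · intro k l
    refine Fin.cases ?_ (fun k => ?_) k <;> refine Fin.cases ?_ (fun l => ?_) l <;> intro hkl
    · exact absurd hkl (lt_irrefl _)
    · simp; omega
    · exact absurd hkl (by simp)
    · simpa using S.amono (Fin.succ_lt_succ_iff.1 hkl)
  · intro k l
    refine Fin.cases ?_ (fun k => ?_) k <;> refine Fin.cases ?_ (fun l => ?_) l <;> intro hkl
    · exact absurd hkl (lt_irrefl _)
    · simp; omega
    · exact absurd hkl (by simp)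
    · simpa using S.bmono (Fin.succ_lt_succ_iff.1 hkl)
  · refine Fin.cases ?_ (fun k => ?_) k
    · exact fun t ht => (hR t (hTR t ht)).1
    · exact fun t ht => hBU (S.sub k ht)
  · refine Fin.cases ?_ (fun k => ?_) k
    exacts [hT, S.conn k]
  · refine Fin.cases ?_ (fun k => ?_) k
    · intro t ht htp
      rcases List.mem_append.1 htp with h | h
      · simpa [List.getElem_append_left hi] using hTp t ht h
      · exact absurd (hPB t h) (hR t (hTR t ht)).2
    · intro t ht htp
      rcases List.mem_append.1 htp with h | h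
      · exact absurd (S.sub k ht) (hpB t h).2
      · simpa [List.getElem_append_right (Nat.le_add_right _ _)] using S.tp k t ht h
  · refine Fin.cases ?_ (fun k => ?_) k
    · simpa [List.getElem_append_left hi] using hiT
    · simpa [List.getElem_append_right (Nat.le_add_right _ _)] using S.mem k
  · refine Fin.cases ?_ (fun k => ?_) k
    · intro t ht htq
      rcases List.mem_append.1 htq with h | h
      · exact hTq t ht h
      · exact (hR t (hTR t ht)).2 (hQB t h)
    · intro t ht htq
      rcases List.mem_append.1 htq with h | h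
      · exact (hqB t h).2 (S.sub k ht)
      · exact S.tq k t ht h
  · refine Fin.cases ?_ (fun k => ?_) k
    · exact ⟨t, ht, by simpa [List.getElem_append_left hj] using htj⟩
    · obtain ⟨s, hs, hadj⟩ := S.adj k
      exact ⟨s, hs, by simpa [List.getElem_append_right (Nat.le_add_right _ _)] using hadj⟩
  · refine Fin.cases ?_ (fun k => ?_) k <;> refine Fin.cases ?_ (fun l => ?_) l <;> intro hkl
    · exact absurd rfl hkl
    · exact Set.disjoint_left.2 fun t h1 h2 => (hR t (hTR t h1)).2 (S.sub l h2)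
    · exact Set.disjoint_left.2 fun t h1 h2 => (hR t (hTR t h2)).2 (S.sub k h1)
    · exact S.disj k l fun e => hkl (by rw [e])

/-- Connected sets off `u` and `v` meeting every `u`-`v` walk of `U`. -/
def Cuts (G : SimpleGraph V) (U : Set V) (u v : V) (M : Finset V) : Prop :=
  ConnIn G (M : Set V) ∧ u ∉ M ∧ v ∉ M ∧
    ∀ w : G.Walk u v, (∀ t ∈ w.support, t ∈ U) → ∃ t ∈ w.support, t ∈ M

theorem cuts_fewDisjoint [Fintype V] {n : ℕ}
    (hG : ¬ HasMinor G ((pathGraph 2).boxProd (pathGraph n))) {U : Set V} (hU : Block G U)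
    {u v : V} (hu : u ∈ U) (hv : v ∈ U) (hne : u ≠ v) :
    FewDisjoint (Cuts G U u v) (n * n) := by
  classical
  intro M hM hdisj
  by_cases hadj : G.Adj u v
  · obtain ⟨t, ht, htM⟩ := (hM 0).2.2.2 hadj.toWalk (by simp [hu, hv])
    simp at ht
    rcases ht with rfl | rfl
    exacts [(hM 0).2.1 htM, (hM 0).2.2.1 htM]
  have hlink : Linked' (within G (U \ {u, v})) {t | t ∈ U \ {u, v} ∧ G.Adj u t}
      {t | t ∈ U \ {u, v} ∧ G.Adj t v} 2 := by
    refine menger _ _ _ 2 fun S hS => ?_
    by_contra hlt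
    have hcard : S.card ≤ 1 := by omega
    obtain ⟨w, hw⟩ : ∃ w : G.Walk u v, ∀ t ∈ w.support, t ∈ U ∧ (t ∈ S → t = u ∨ t = v) := by
      by_cases he : ∃ z ∈ S, z ∈ U ∧ z ≠ u ∧ z ≠ v
      · obtain ⟨z, hz, hzU, hzu, hzv⟩ := he
        obtain ⟨w, hw⟩ := hU.2 z hzU u ⟨hu, hzu.symm⟩ v ⟨hv, hzv.symm⟩
        exact ⟨w, fun t ht => ⟨(hw t ht).1, fun htS =>
          absurd (Finset.card_le_one.1 hcard t htS z hz) (hw t ht).2⟩⟩
      · push Not at he
        obtain ⟨w, hw⟩ := hU.1 u hu v hv
        exact ⟨w, fun t ht => ⟨hw t ht, fun htS => by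
          by_cases htu : t = u
          exacts [Or.inl htu, Or.inr (he t htS (hw t ht) htu)]⟩⟩
    have hp := w.bypass_isPath
    have hsub : ∀ t ∈ w.bypass.support, t ∈ w.support := fun t ht => w.support_bypass_subset_support ht
    generalize w.bypass = P at hp hsub
    cases P with
    | nil => exact hne rfl
    | @cons _ s _ hus P =>
      rw [Walk.cons_isPath_iff] at hp
      have hsv : s ≠ v := fun e => hadj (e ▸ hus)
      obtain ⟨T, hsT, hT, hTP, hTv, t, htT, b, hb, -, htb⟩ :=
        exists_approach P [v] (fun h => hsv (List.mem_singleton.1 h)) (by simp)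
      rw [List.mem_singleton] at hb
      subst hb
      have hTU : ∀ z ∈ T, z ∈ U ∧ z ≠ u ∧ z ≠ b := fun z hz =>
        ⟨(hw z (hsub z (by simp [hTP z hz]))).1, fun e => hp.2 (e ▸ hTP z hz),
          fun e => hTv z hz (List.mem_singleton.2 e)⟩
      have hTU' : ∀ z ∈ T, z ∈ U \ ({u, b} : Set V) := fun z hz => by
        simp [(hTU z hz).1, (hTU z hz).2.1, (hTU z hz).2.2]
      obtain ⟨p, hpT⟩ := hT s hsT t htT
      obtain ⟨p', hp'⟩ := walk_within p fun z hz => hTU' z (hpT z hz)
      obtain ⟨z, hz, hzS⟩ := hS s ⟨hTU' s hsT, hus⟩ t ⟨hTU' t htT, htb⟩ p'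
      rw [hp'] at hz
      have h := hTU z (hpT z hz)
      rcases (hw z (hsub z (by simp [hTP z (hpT z hz)]))).2 hzS with e | e
      exacts [h.2.1 e, h.2.2 e]
  obtain ⟨a, b, w, hab, hd⟩ := hlink
  let p := ((w 0).mapLe (within_le _)).bypass
  let q := ((w 1).mapLe (within_le _)).bypass
  have hsub : ∀ i, ∀ t ∈ ((w i).mapLe (within_le _)).bypass.support, t ∈ (w i).support :=
    fun i t ht => by simpa using Walk.support_bypass_subset_support _ ht
  have meet : ∀ i k, ∃ t ∈ (M k : Set V), t ∈ ((w i).mapLe (within_le _)).bypass.support := by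
    intro i k
    obtain ⟨t, ht, htM⟩ := (hM k).2.2.2
      (Walk.cons (hab i).1.2 (((w i).mapLe (within_le _)).bypass.append (hab i).2.2.toWalk))
      (by
        intro t ht
        simp only [Walk.support_cons, List.mem_cons, Walk.mem_support_append_iff,
          Adj.toWalk, Walk.support_nil, List.not_mem_nil, or_false] at ht
        rcases ht with rfl | ht | rfl | rfl
        · exact hu
        · exact (within_support (hab i).1.1 (w i) t (hsub i t ht)).1
        · exact (hab i).2.1.1
        · exact hv)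
    simp only [Walk.support_cons, List.mem_cons, Walk.mem_support_append_iff,
      Adj.toWalk, Walk.support_nil, List.not_mem_nil, or_false] at ht
    rcases ht with rfl | ht | rfl | rfl
    · exact absurd htM (hM k).2.1
    · exact ⟨t, htM, ht⟩
    · exact ⟨_, htM, Walk.end_mem_support _⟩
    · exact absurd htM (hM k).2.2.1
  exact hG (hasMinor_of_meet (Nat.le_succ _) (IsPathList.of_path (Walk.bypass_isPath _))
    (IsPathList.of_path (Walk.bypass_isPath _))
    (fun t h1 h2 => hd 0 1 (by decide) t (hsub 0 t h1) (hsub 1 t h2))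
    (fun k => (M k : Set V)) (fun k => (hM k).1) hdisj (meet 0) (meet 1))

/-- Apices to remove at each step, for graphs without the ladder minor with `n` rungs. -/
def apexCount (n : ℕ) : ℕ :=
  2 + n * n * (1 + (n * n + 1) * ((n * n + 1) * (n * n + 1) * (n * n) + 1))

/-- The distortion bound. -/
def ladderBound (n : ℕ) : ℕ → ℝ
  | 0 => 1
  | r + 1 => 576 * (apexCount n + ladderBound n r)

theorem one_le_ladderBound (n r : ℕ) : 1 ≤ ladderBound n r := by
  induction r with
  | zero => exact le_rfl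
  | succ r ih =>
    have : (0 : ℝ) ≤ apexCount n := Nat.cast_nonneg _
    rw [ladderBound]
    linarith

theorem c1Le_subsingleton {W : Type} (H : SimpleGraph W) [Subsingleton W] {C : ℝ} :
    C1Le H C := by
  intro ℓ hℓ
  refine ⟨0, fun _ i => i.elim0, fun x y _ => ?_⟩
  obtain rfl := Subsingleton.elim x y
  simp [pathDist_self hℓ x]

/-- An induced subgraph of an induced subgraph is an induced subgraph. -/
def induceInduce (G : SimpleGraph V) {s t : Set V} {S : Set ↥s} (h₁ : ∀ z ∈ t, z ∈ s)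
    (h₂ : ∀ z : ↥s, z ∈ S ↔ z.1 ∈ t) : (G.induce s).induce S ≃g G.induce t :=
  RelIso.mk
    { toFun := fun z => ⟨z.1.1, (h₂ z.1).1 z.2⟩
      invFun := fun z => ⟨⟨z.1, h₁ z.1 z.2⟩, (h₂ _).2 z.2⟩
      left_inv := fun _ => rfl
      right_inv := fun _ => rfl }
    Iff.rfl

theorem card_subtype_le {X : Finset V} (P : V → Prop) [DecidablePred P] :
    (X.subtype P).card ≤ X.card := by
  rw [Finset.card_subtype]
  exact Finset.card_filter_le _ _

theorem c1Le_rooted [Fintype V] {n : ℕ}
    (hG : ¬ HasMinor G ((pathGraph 2).boxProd (pathGraph n))) (r : ℕ) :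
    ∀ (U : Finset V) (u v : V), Block G (U : Set V) → u ∈ U → v ∈ U → u ≠ v →
      ¬ Rooted G (U : Set V) u v (r + 1) → C1Le (G.induce (U : Set V)) (ladderBound n r) := by
  classical
  induction r with
  | zero =>
    intro U u v hU hu hv hne h
    exact absurd (rooted_one hU.1 hu hv hne) h
  | succ r ih =>
    intro U u v hU hu hv hne h
    obtain ⟨Z, hZ, hhit⟩ := hitsIn_of_fewDisjoint hG (n * n)
      (fun M => Cuts G (U : Set V) u v M ∧ M.Nonempty) (fun M hM => hM.1.1) (fun M hM => hM.2)
      (fun M hM => cuts_fewDisjoint hG hU hu hv hne M fun i => (hM i).1)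
    let X : Finset V := insert u (insert v Z)
    have hX : X.card ≤ apexCount n := by
      have h1 := Finset.card_insert_le u (insert v Z)
      have h2 := Finset.card_insert_le v Z
      show (insert u (insert v Z)).card ≤ _
      unfold apexCount
      omega
    have hblocks : C1Le (G.induce ((U \ X : Finset V) : Set V)) (ladderBound n r) := by
      refine c1Le_blocks G (one_le_ladderBound n r) _ fun B hB hBb => ?_
      by_cases h1 : ∃ b₁ ∈ B, ∃ b₂ ∈ B, b₁ ≠ b₂
      swap
      · push Not at h1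
        have : Subsingleton ↥(B : Set V) := ⟨fun x y => Subtype.ext (h1 x x.2 y y.2)⟩
        exact c1Le_subsingleton _
      obtain ⟨b₁, hb₁, b₂, hb₂, hb⟩ := h1
      have hBX : ∀ t ∈ B, t ∈ U ∧ t ∉ X := fun t ht => Finset.mem_sdiff.1 (hB ht)
      have huB : u ∉ B := fun e => (hBX u e).2 (by simp [X])
      have hvB : v ∉ B := fun e => (hBX v e).2 (by simp [X])
      obtain ⟨R, hR⟩ : ∃ R : G.Walk u v, ∀ t ∈ R.support, t ∈ (U : Set V) ∧ t ∉ (B : Set V) := by
        by_contra hno
        push Not at hno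
        have hcut : Cuts G (U : Set V) u v B :=
          ⟨hBb.1, huB, hvB, fun w hw => by
            obtain ⟨t, ht, htB⟩ := hno w
            exact ⟨t, ht, htB (hw t ht)⟩⟩
        obtain ⟨t, ht, htZ⟩ := hhit B ⟨hcut, b₁, hb₁⟩
        exact (hBX t ht).2 (by simp [X, htZ])
      obtain ⟨a, b, ha, hbB, hab, hstep⟩ :=
        rooted_step hU hu hv hne (fun t ht => (hBX t ht).1) hb₁ hb₂ hb hR
      exact ih B a b hBb ha hbB hab fun h' => h (hstep _ h')
    have hconn : (G.induce (U : Set V)).Connected := hU.1.connected ⟨u, hu⟩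
    refine c1Le_mono ?_ (c1Le_apex' hconn (X.subtype (· ∈ (U : Set V))) (one_le_ladderBound n r)
      (c1Le_iso (induceInduce G (fun z hz => (Finset.mem_sdiff.1 hz).1) fun z => ?_) hblocks))
    swap
    · simp
    have hc : ((X.subtype (· ∈ (U : Set V))).card : ℝ) ≤ apexCount n := by
      exact_mod_cast (card_subtype_le _).trans hX
    have := one_le_ladderBound n r
    rw [ladderBound]
    linarith

/-- Without the ladder minor with `n` rungs the distortion is bounded in terms of `n`. -/
theorem c1Le_ladderFree [Fintype V] {n : ℕ}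
    (hG : ¬ HasMinor G ((pathGraph 2).boxProd (pathGraph n))) :
    C1Le G (ladderBound n (n - 1)) := by
  classical
  refine c1Le_iso (induceUnivIso G).symm ?_
  rw [← Finset.coe_univ]
  refine c1Le_blocks G (one_le_ladderBound _ _) _ fun B _ hB => ?_
  by_cases h1 : ∃ b₁ ∈ B, ∃ b₂ ∈ B, b₁ ≠ b₂
  swap
  · push Not at h1
    have : Subsingleton ↥(B : Set V) := ⟨fun x y => Subtype.ext (h1 x x.2 y y.2)⟩
    exact c1Le_subsingleton _
  obtain ⟨u, hu, v, hv, hne⟩ := h1
  refine c1Le_rooted hG (n - 1) B u v hB hu hv hne fun h => ?_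
  rcases Nat.eq_zero_or_pos n with rfl | hn
  · exact hG ⟨fun w => w.2.elim0, fun w => w.2.elim0, fun w => w.2.elim0, fun w => w.2.elim0⟩
  · rw [Nat.sub_add_cancel hn] at h
    exact hG h.hasMinor

end Vale.Agent.P235
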