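import Vale.Agent.P235.Defs
import Mathlib.Algebra.Order.BigOperators.Group.List
import Mathlib.Tactic.Linarith

/-!
Basic facts about shortest path distances, and the isometric embedding of forests into `ℓ₁`.
-/

namespace Vale.Agent.P235

open SimpleGraph

variable {V : Type} {G : SimpleGraph V} {ℓ : Sym2 V → ℝ}

lemma walkLen_nonneg (hℓ : ∀ e ∈ G.edgeSet, 0 < ℓ e) {x y : V} (w : G.Walk x y) :
    0 ≤ walkLen ℓ w := by
  refine List.sum_nonneg fun a ha => ?_
  obtain ⟨e, he, rfl⟩ := List.mem_map.1 ha
  exact (hℓ e (w.edges_subset_edgeSet he)).le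

lemma walkLen_append {x y z : V} (p : G.Walk x y) (q : G.Walk y z) :
    walkLen ℓ (p.append q) = walkLen ℓ p + walkLen ℓ q := by
  simp [walkLen, Walk.edges_append]

lemma walkLen_reverse {x y : V} (p : G.Walk x y) : walkLen ℓ p.reverse = walkLen ℓ p := by
  simp [walkLen, Walk.edges_reverse]

lemma bddBelow_walkLen (hℓ : ∀ e ∈ G.edgeSet, 0 < ℓ e) (x y : V) :
    BddBelow (Set.range fun w : G.Walk x y => walkLen ℓ w) :=
  ⟨0, by rintro _ ⟨w, rfl⟩; exact walkLen_nonneg hℓ w⟩

lemma pathDist_le (hℓ : ∀ e ∈ G.edgeSet, 0 < ℓ e) {x y : V} (w : G.Walk x y) :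
    pathDist G ℓ x y ≤ walkLen ℓ w :=
  ciInf_le (bddBelow_walkLen hℓ x y) w

lemma le_pathDist {x y : V} (h : G.Reachable x y) {c : ℝ}
    (H : ∀ w : G.Walk x y, c ≤ walkLen ℓ w) : c ≤ pathDist G ℓ x y :=
  haveI : Nonempty (G.Walk x y) := h
  le_ciInf H

lemma pathDist_nonneg (hℓ : ∀ e ∈ G.edgeSet, 0 < ℓ e) (x y : V) : 0 ≤ pathDist G ℓ x y :=
  Real.iInf_nonneg fun w => walkLen_nonneg hℓ w

lemma pathDist_self (hℓ : ∀ e ∈ G.edgeSet, 0 < ℓ e) (x : V) : pathDist G ℓ x x = 0 :=
  le_antisymm ((pathDist_le hℓ (Walk.nil : G.Walk x x)).trans_eq (by simp [walkLen]))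
    (pathDist_nonneg hℓ x x)

lemma pathDist_comm (hℓ : ∀ e ∈ G.edgeSet, 0 < ℓ e) {x y : V} (h : G.Reachable x y) :
    pathDist G ℓ x y = pathDist G ℓ y x := by
  refine le_antisymm (le_pathDist h.symm fun w => ?_) (le_pathDist h fun w => ?_)
  · exact (pathDist_le hℓ w.reverse).trans_eq (walkLen_reverse w)
  · exact (pathDist_le hℓ w.reverse).trans_eq (walkLen_reverse w)

lemma pathDist_triangle (hℓ : ∀ e ∈ G.edgeSet, 0 < ℓ e) {x y z : V} (h : G.Reachable x y)
    (h' : G.Reachable y z) :
    pathDist G ℓ x z ≤ pathDist G ℓ x y + pathDist G ℓ y z := by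
  have h1 : pathDist G ℓ x z - pathDist G ℓ y z ≤ pathDist G ℓ x y := by
    refine le_pathDist h fun w => ?_
    have h2 : pathDist G ℓ x z - walkLen ℓ w ≤ pathDist G ℓ y z := by
      refine le_pathDist h' fun w' => ?_
      linarith [pathDist_le hℓ (w.append w'), walkLen_append (ℓ := ℓ) w w']
    linarith
  linarith

lemma pathDist_pos [Fintype V] (hℓ : ∀ e ∈ G.edgeSet, 0 < ℓ e) {x y : V} (h : G.Reachable x y)
    (hne : x ≠ y) : 0 < pathDist G ℓ x y := by
  classical
  obtain ⟨w⟩ := h
  have hne' : G.edgeFinset.Nonempty := by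
    cases w with
    | nil => exact absurd rfl hne
    | cons h' _ => exact ⟨_, mem_edgeFinset.2 (G.mem_edgeSet.2 h')⟩
  refine lt_of_lt_of_le ((Finset.lt_inf'_iff hne').2 fun e he => hℓ e (mem_edgeFinset.1 he))
    (le_pathDist ⟨w⟩ fun p => ?_)
  cases p with
  | nil => exact absurd rfl hne
  | cons h' q =>
    have h1 : G.edgeFinset.inf' hne' ℓ ≤ ℓ _ := Finset.inf'_le ℓ (mem_edgeFinset.2 (G.mem_edgeSet.2 h'))
    have h2 := walkLen_nonneg hℓ q
    simp only [walkLen, Walk.edges_cons, List.map_cons, List.sum_cons] at h2 ⊢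
    linarith

open Classical in
/-- indicator of the side of the edge `e` on which `z` lies -/
noncomputable def side (G : SimpleGraph V) (e : Sym2 V) (z : V) : ℝ :=
  if (G.deleteEdges {e}).Reachable z e.out.1 then 1 else 0

lemma side_step {e : Sym2 V} {x z : V} (h : G.Adj x z) (hne : s(x, z) ≠ e) :
    side G e x = side G e z := by
  have hadj : (G.deleteEdges {e}).Adj x z := by simp [h, hne]
  unfold side
  have : (G.deleteEdges {e}).Reachable x e.out.1 ↔ (G.deleteEdges {e}).Reachable z e.out.1 :=
    ⟨fun r => hadj.symm.reachable.trans r, fun r => hadj.reachable.trans r⟩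
  classical exact if_congr this rfl rfl

lemma side_walk {e : Sym2 V} {x y : V} (w : G.Walk x y) (he : e ∉ w.edges) :
    side G e x = side G e y := by
  induction w with
  | nil => rfl
  | cons h q ih =>
    simp only [Walk.edges_cons, List.mem_cons, not_or] at he
    exact (side_step h (Ne.symm he.1)).trans (ih he.2)

lemma side_bridge {x z : V} (h : G.Adj x z) (hb : G.IsBridge s(x, z)) :
    |side G s(x, z) x - side G s(x, z) z| = 1 := by
  have hnr : ¬ (G.deleteEdges {s(x, z)}).Reachable x z := isBridge_iff.1 hb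
  have ho : (s(x, z) : Sym2 V).out.1 = x ∨ (s(x, z) : Sym2 V).out.1 = z :=
    Sym2.mem_iff.1 (Sym2.out_fst_mem _)
  unfold side
  rcases ho with ho | ho <;> rw [ho]
  · rw [if_pos (Reachable.refl _), if_neg fun r => hnr r.symm]; norm_num
  · rw [if_neg hnr, if_pos (Reachable.refl _)]; norm_num

lemma side_trail (hG : G.IsAcyclic) {e : Sym2 V} {x y : V} (w : G.Walk x y) (hw : w.IsTrail)
    (he : e ∈ w.edges) : |side G e x - side G e y| = 1 := by
  induction w with
  | nil => simp at he
  | cons h q ih =>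
    rw [Walk.isTrail_cons] at hw
    simp only [Walk.edges_cons, List.mem_cons] at he
    rcases he with rfl | he
    · rw [← side_walk q hw.2]
      exact side_bridge h (isAcyclic_iff_forall_adj_isBridge.1 hG h)
    · rw [side_step h fun hh => hw.2 (hh ▸ he)]
      exact ih hw.1 he

/-- Forests embed isometrically into `ℓ₁`. -/
lemma forest_l1 [Fintype V] (hG : G.IsAcyclic) (hℓ : ∀ e ∈ G.edgeSet, 0 < ℓ e) :
    ∃ (ι : Type) (_ : Fintype ι) (f : V → ι → ℝ), ∀ x y : V, G.Reachable x y →
      ∑ i, |f x i - f y i| = pathDist G ℓ x y := by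
  classical
  refine ⟨Sym2 V, inferInstance, fun z e => if e ∈ G.edgeSet then ℓ e * side G e z else 0,
    fun x y h => ?_⟩
  have key : ∀ {p : G.Walk x y} (e : Sym2 V), e ∉ p.edges →
      |(if e ∈ G.edgeSet then ℓ e * side G e x else 0)
        - (if e ∈ G.edgeSet then ℓ e * side G e y else 0)| = 0 := by
    intro p e he
    split <;> simp [side_walk p he]
  apply le_antisymm
  · refine le_pathDist h fun w => ?_
    calc _ = ∑ e ∈ w.edges.toFinset, |(if e ∈ G.edgeSet then ℓ e * side G e x else 0)
          - (if e ∈ G.edgeSet then ℓ e * side G e y else 0)| := by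
          refine (Finset.sum_subset (Finset.subset_univ _) fun e _ he => ?_).symm
          exact key e (fun h' => he (List.mem_toFinset.2 h'))
      _ ≤ ∑ e ∈ w.edges.toFinset, ℓ e := by
          refine Finset.sum_le_sum fun e he => ?_
          have hmem := w.edges_subset_edgeSet (List.mem_toFinset.1 he)
          have hl := hℓ e hmem
          rw [if_pos hmem, if_pos hmem]
          unfold side
          split <;> split <;> simp [abs_of_pos hl, hl.le]
      _ ≤ walkLen ℓ w := by
          unfold walkLen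
          rw [Finset.sum_list_map_count]
          refine Finset.sum_le_sum fun e he => ?_
          have hl := hℓ e (w.edges_subset_edgeSet (List.mem_toFinset.1 he))
          have hc : (1:ℝ) ≤ (w.edges.count e : ℕ) := by
            exact_mod_cast List.count_pos_iff.2 (List.mem_toFinset.1 he)
          simp only [nsmul_eq_mul]
          nlinarith
  · obtain ⟨w⟩ := h
    have hp := w.bypass_isPath
    refine (pathDist_le hℓ w.bypass).trans (le_of_eq ?_)
    set p := w.bypass
    calc walkLen ℓ p = ∑ e ∈ p.edges.toFinset, ℓ e :=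
          (List.sum_toFinset ℓ hp.isTrail.edges_nodup).symm
      _ = ∑ e ∈ p.edges.toFinset, |(if e ∈ G.edgeSet then ℓ e * side G e x else 0)
          - (if e ∈ G.edgeSet then ℓ e * side G e y else 0)| := by
          refine Finset.sum_congr rfl fun e he => ?_
          have hmem := p.edges_subset_edgeSet (List.mem_toFinset.1 he)
          rw [if_pos hmem, if_pos hmem, ← mul_sub, abs_mul,
            side_trail hG p hp.isTrail (List.mem_toFinset.1 he), abs_of_pos (hℓ e hmem), mul_one]
      _ = _ := by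
          refine Finset.sum_subset (Finset.subset_univ _) fun e _ he => ?_
          exact key e (fun h' => he (List.mem_toFinset.2 h'))

end Vale.Agent.P235
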