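import Vale.Agent.P235.Linkage

/-!
Ladder minors from two disjoint paths and disjoint connected sets meeting both of them.
-/

namespace Vale.Agent.P235

open SimpleGraph

variable {V : Type} {G : SimpleGraph V}

/-- `H` is a minor of `G`: disjoint connected branch sets, joined by edges wherever `H` has one. -/
def HasMinor {W : Type} (G : SimpleGraph V) (H : SimpleGraph W) : Prop :=
  ∃ β : W → Set V, (∀ w w', w ≠ w' → Disjoint (β w) (β w')) ∧
    (∀ w, (G.induce (β w)).Connected) ∧
    ∀ w w', H.Adj w w' → ∃ a ∈ β w, ∃ b ∈ β w', G.Adj a b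

/-- A path, as a list of vertices. -/
def IsPathList (G : SimpleGraph V) (l : List V) : Prop := l.IsChain G.Adj ∧ l.Nodup

/-- Rungs between the lists `p` and `q`, at increasing positions of both. -/
structure Rungs (G : SimpleGraph V) (U : Set V) (p q : List V) (r : ℕ) where
  a : Fin r → ℕ
  b : Fin r → ℕ
  ha : ∀ i, a i < p.length
  hb : ∀ i, b i < q.length
  amono : StrictMono a
  bmono : StrictMono b
  T : Fin r → Set V
  sub : ∀ i, T i ⊆ U
  conn : ∀ i, ConnIn G (T i)
  tp : ∀ i t, t ∈ T i → t ∈ p → t = p[a i]'(ha i)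
  mem : ∀ i, p[a i]'(ha i) ∈ T i
  tq : ∀ i t, t ∈ T i → t ∉ q
  adj : ∀ i, ∃ t ∈ T i, G.Adj t (q[b i]'(hb i))
  disj : ∀ i j, i ≠ j → Disjoint (T i) (T j)

theorem IsPathList.adj {l : List V} (h : IsPathList G l) {i : ℕ} (hi : i + 1 < l.length) :
    G.Adj l[i] l[i + 1] := List.isChain_iff_getElem.1 h.1 i hi

theorem IsPathList.reverse {l : List V} (h : IsPathList G l) : IsPathList G l.reverse :=
  ⟨(List.isChain_reverse.2 (h.1.imp fun _ _ hab => hab.symm)), List.nodup_reverse.2 h.2⟩

theorem IsPathList.of_path {x y : V} {w : G.Walk x y} (hw : w.IsPath) :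
    IsPathList G w.support :=
  ⟨w.isChain_adj_support, hw.support_nodup⟩

/-- The vertices at positions in `[lo, hi)`. -/
def seg (l : List V) (lo hi : ℕ) : Set V :=
  {t | ∃ k, ∃ h : k < l.length, lo ≤ k ∧ k < hi ∧ t = l[k]}

theorem connIn_seg {l : List V} (h : IsPathList G l) (lo hi : ℕ) : ConnIn G (seg l lo hi) := by
  have key : ∀ d k (hk : k + d < l.length), lo ≤ k → k + d < hi →
      Reach G (seg l lo hi) (l[k]'(by omega)) (l[k + d]'hk) := by
    intro d
    induction d with
    | zero => intro k hk h1 h2; exact Reach.refl ⟨k, by omega, h1, by omega, rfl⟩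
    | succ d ih =>
      intro k hk h1 h2
      exact (ih k (by omega) h1 (by omega)).trans (Reach.of_adj
        ⟨k + d, by omega, by omega, by omega, rfl⟩ ⟨k + (d + 1), hk, by omega, h2, rfl⟩
        (h.adj (i := k + d) (by omega)))
  rintro x ⟨i, hi', hi1, hi2, rfl⟩ y ⟨j, hj', hj1, hj2, rfl⟩
  rcases le_total i j with hij | hij
  · obtain ⟨d, rfl⟩ := Nat.exists_eq_add_of_le hij
    exact key d i hj' hi1 hj2
  · obtain ⟨d, rfl⟩ := Nat.exists_eq_add_of_le hij
    exact (key d j hi' hj1 hi2).symm

/-- Rungs between disjoint paths give a ladder minor. -/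
theorem Rungs.hasMinor {U : Set V} {p q : List V} {n : ℕ} (R : Rungs G U p q n)
    (hp : IsPathList G p) (hq : IsPathList G q) (hpq : ∀ t ∈ p, t ∉ q) :
    HasMinor G ((pathGraph 2).boxProd (pathGraph n)) := by
  classical
  let hiA : Fin n → ℕ := fun i => if h : i.val + 1 < n then R.a ⟨i.val + 1, h⟩ else p.length
  let hiB : Fin n → ℕ := fun i => if h : i.val + 1 < n then R.b ⟨i.val + 1, h⟩ else q.length
  have la : ∀ i, R.a i < hiA i := fun i => by
    simp only [hiA]; split_ifs with h
    · exact R.amono (show i < ⟨i.val + 1, h⟩ from Nat.lt_succ_self _)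
    · exact R.ha i
  have lb : ∀ i, R.b i < hiB i := fun i => by
    simp only [hiB]; split_ifs with h
    · exact R.bmono (show i < ⟨i.val + 1, h⟩ from Nat.lt_succ_self _)
    · exact R.hb i
  have sepA : ∀ i j : Fin n, i < j → hiA i ≤ R.a j := fun i j hij => by
    simp only [hiA]
    rw [dif_pos (by omega)]
    exact R.amono.monotone (show (⟨i.val + 1, _⟩ : Fin n) ≤ j from Nat.succ_le_of_lt hij)
  have sepB : ∀ i j : Fin n, i < j → hiB i ≤ R.b j := fun i j hij => by
    simp only [hiB]
    rw [dif_pos (by omega)]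
    exact R.bmono.monotone (show (⟨i.val + 1, _⟩ : Fin n) ≤ j from Nat.succ_le_of_lt hij)
  let β : Fin 2 × Fin n → Set V := fun z =>
    if z.1 = 0 then seg p (R.a z.2) (hiA z.2) ∪ R.T z.2 else seg q (R.b z.2) (hiB z.2)
  have segp : ∀ {lo hi t}, t ∈ seg p lo hi → t ∈ p := fun ⟨k, hk, _, _, e⟩ =>
    e ▸ List.getElem_mem hk
  have segq : ∀ {lo hi t}, t ∈ seg q lo hi → t ∈ q := fun ⟨k, hk, _, _, e⟩ =>
    e ▸ List.getElem_mem hk
  have pT : ∀ i j t, t ∈ seg p (R.a i) (hiA i) → t ∈ R.T j → i = j := by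
    rintro i j t ⟨k, hk, h1, h2, rfl⟩ hT
    have e := (hp.2.getElem_inj_iff).1 (R.tp j _ hT (List.getElem_mem hk))
    rcases lt_trichotomy i j with h | h | h
    · have := sepA i j h; omega
    · exact h
    · have := R.amono h; omega
  have top : ∀ i j t, i ≠ j → t ∈ seg p (R.a i) (hiA i) ∪ R.T i →
      t ∈ seg p (R.a j) (hiA j) ∪ R.T j → False := by
    rintro i j t hij (h1 | h1) (h2 | h2)
    · obtain ⟨k, hk, k1, k2, rfl⟩ := h1
      obtain ⟨l, hl, l1, l2, e⟩ := h2
      have := (hp.2.getElem_inj_iff).1 e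
      rcases lt_or_gt_of_ne hij with h | h
      · have := sepA i j h; omega
      · have := sepA j i h; omega
    · exact hij (pT i j t h1 h2)
    · exact hij (pT j i t h2 h1).symm
    · exact Set.disjoint_left.1 (R.disj i j hij) h1 h2
  have bot : ∀ i j t, i ≠ j → t ∈ seg q (R.b i) (hiB i) → t ∈ seg q (R.b j) (hiB j) → False := by
    rintro i j t hij ⟨k, hk, k1, k2, rfl⟩ ⟨l, hl, l1, l2, e⟩
    have := (hq.2.getElem_inj_iff).1 e
    rcases lt_or_gt_of_ne hij with h | h
    · have := sepB i j h; omega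
    · have := sepB j i h; omega
  have cross : ∀ i j t, t ∈ seg p (R.a i) (hiA i) ∪ R.T i → t ∈ seg q (R.b j) (hiB j) → False := by
    rintro i j t (h1 | h1) h2
    · exact hpq t (segp h1) (segq h2)
    · exact R.tq i t h1 (segq h2)
  have two : ∀ z : Fin 2, z = 0 ∨ z = 1 := by decide
  refine ⟨β, ?_, ?_, ?_⟩
  · rintro ⟨s, i⟩ ⟨s', j⟩ hne
    rw [Set.disjoint_left]
    intro t h1 h2
    rcases two s with rfl | rfl <;> rcases two s' with rfl | rfl <;> simp [β] at h1 h2
    · exact top i j t (fun e => hne (by rw [e])) h1 h2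
    · exact cross i j t h1 h2
    · exact cross j i t h2 h1
    · exact bot i j t (fun e => hne (by rw [e])) h1 h2
  · rintro ⟨s, i⟩
    rcases two s with rfl | rfl
    · have hm : p[R.a i]'(R.ha i) ∈ seg p (R.a i) (hiA i) := ⟨_, R.ha i, le_rfl, la i, rfl⟩
      have hc := (connIn_seg hp (R.a i) (hiA i)).union (R.conn i) hm (R.mem i) (Or.inl rfl)
      simpa [β] using hc.connected ⟨_, Or.inl hm⟩
    · simpa [β] using (connIn_seg hq (R.b i) (hiB i)).connected ⟨_, _, R.hb i, le_rfl, lb i, rfl⟩
  · have hrung : ∀ i, ∃ a ∈ seg p (R.a i) (hiA i) ∪ R.T i, ∃ b ∈ seg q (R.b i) (hiB i),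
        G.Adj a b := fun i => by
      obtain ⟨t, ht, hadj⟩ := R.adj i
      exact ⟨t, Or.inr ht, _, ⟨_, R.hb i, le_rfl, lb i, rfl⟩, hadj⟩
    have railP : ∀ i j : Fin n, i.val + 1 = j.val →
        ∃ a ∈ seg p (R.a i) (hiA i), ∃ b ∈ seg p (R.a j) (hiA j), G.Adj a b := by
      intro i j hij
      have hlt : R.a i < R.a j := R.amono (show i < j by omega)
      have hj := R.ha j
      have e : hiA i = R.a j := by
        simp only [hiA]; rw [dif_pos (by omega)]; congr 1; exact Fin.ext hij
      have := hp.adj (i := R.a j - 1) (by omega)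
      simp only [Nat.sub_add_cancel (show 1 ≤ R.a j by omega)] at this
      exact ⟨_, ⟨R.a j - 1, by omega, by omega, by omega, rfl⟩, _,
        ⟨_, hj, le_rfl, la j, rfl⟩, this⟩
    have railQ : ∀ i j : Fin n, i.val + 1 = j.val →
        ∃ a ∈ seg q (R.b i) (hiB i), ∃ b ∈ seg q (R.b j) (hiB j), G.Adj a b := by
      intro i j hij
      have hlt : R.b i < R.b j := R.bmono (show i < j by omega)
      have hj := R.hb j
      have e : hiB i = R.b j := by
        simp only [hiB]; rw [dif_pos (by omega)]; congr 1; exact Fin.ext hij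
      have := hq.adj (i := R.b j - 1) (by omega)
      simp only [Nat.sub_add_cancel (show 1 ≤ R.b j by omega)] at this
      exact ⟨_, ⟨R.b j - 1, by omega, by omega, by omega, rfl⟩, _,
        ⟨_, hj, le_rfl, lb j, rfl⟩, this⟩
    rintro ⟨s, i⟩ ⟨s', j⟩ h
    rcases h with ⟨hs, hij⟩ | ⟨hij, hs⟩
    · have hij : i = j := hij
      subst hij
      have hne : s ≠ s' := hs.ne
      obtain ⟨a, ha, b, hb, hab⟩ := hrung i
      rcases two s with rfl | rfl <;> rcases two s' with rfl | rfl
      · exact absurd rfl hne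
      · exact ⟨a, by simpa [β] using ha, b, by simpa [β] using hb, hab⟩
      · exact ⟨b, by simpa [β] using hb, a, by simpa [β] using ha, hab.symm⟩
      · exact absurd rfl hne
    · have hs : s = s' := hs
      subst hs
      rcases pathGraph_adj.1 hij with h | h <;> rcases two s with rfl | rfl
      · obtain ⟨a, ha, b, hb, hab⟩ := railP i j h
        exact ⟨a, by simp [β, ha], b, by simp [β, hb], hab⟩
      · obtain ⟨a, ha, b, hb, hab⟩ := railQ i j h
        exact ⟨a, by simp [β, ha], b, by simp [β, hb], hab⟩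
      · obtain ⟨a, ha, b, hb, hab⟩ := railP j i h
        exact ⟨b, by simp [β, hb], a, by simp [β, ha], hab.symm⟩
      · obtain ⟨a, ha, b, hb, hab⟩ := railQ j i h
        exact ⟨b, by simp [β, hb], a, by simp [β, ha], hab.symm⟩

/-- A walk from a vertex off `Q` into `Q` yields a connected piece off `Q` next to `Q`. -/
theorem exists_approach {y z : V} (w : G.Walk y z) (q : List V) (hy : y ∉ q) (hz : z ∈ q) :
    ∃ T : Set V, y ∈ T ∧ ConnIn G T ∧ (∀ t ∈ T, t ∈ w.support) ∧ (∀ t ∈ T, t ∉ q) ∧
      ∃ t ∈ T, ∃ b ∈ q, b ∈ w.support ∧ G.Adj t b := by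
  induction w with
  | nil => exact absurd hz hy
  | @cons a c d hac w ih =>
    have single : ConnIn G ({a} : Set V) := fun u hu v hv => by
      rw [Set.mem_singleton_iff] at hu hv
      rw [hu, hv]
      exact Reach.refl rfl
    by_cases hc : c ∈ q
    · exact ⟨{a}, rfl, single, by simp, by simpa using hy, a, rfl, c, hc, by simp, hac⟩
    · obtain ⟨T, hcT, hT, hTs, hTq, t, ht, b, hb, hbs, hadj⟩ := ih hc hz
      refine ⟨{a} ∪ T, Or.inl rfl, single.union hT rfl hcT (Or.inr hac), ?_, ?_, t, Or.inr ht,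
        b, hb, by simp [hbs], hadj⟩
      · rintro u (rfl | hu)
        · simp
        · simp [hTs u hu]
      · rintro u (rfl | hu)
        · exact hy
        · exact hTq u hu

/-- A walk that meets `p` and ends in `q` contains a rung. -/
theorem exists_rung {x z : V} (w : G.Walk x z) (p q : List V) (hpq : ∀ t ∈ p, t ∉ q)
    (hx : ∃ t ∈ w.support, t ∈ p) (hz : z ∈ q) :
    ∃ (T : Set V) (a b : ℕ) (ha : a < p.length) (hb : b < q.length), ConnIn G T ∧
      (∀ t ∈ T, t ∈ w.support) ∧ (∀ t ∈ T, t ∈ p → t = p[a]) ∧ p[a] ∈ T ∧ (∀ t ∈ T, t ∉ q) ∧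
      (∃ t ∈ T, G.Adj t q[b]) ∧ q[b] ∈ w.support := by
  induction w with
  | nil =>
    obtain ⟨t, ht, htp⟩ := hx
    simp only [Walk.support_nil, List.mem_singleton] at ht
    exact absurd hz (hpq _ (ht ▸ htp))
  | @cons a c d hac w ih =>
    by_cases hh : ∃ t ∈ w.support, t ∈ p
    · obtain ⟨T, i, j, hi, hj, h1, h2, h3, h4, h5, h6, h7⟩ := ih hh hz
      exact ⟨T, i, j, hi, hj, h1, fun t ht => by simp [h2 t ht], h3, h4, h5, h6, by simp [h7]⟩
    · push Not at hh
      obtain ⟨t, ht, htp⟩ := hx
      rw [Walk.support_cons, List.mem_cons] at ht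
      rcases ht with rfl | ht
      swap
      · exact absurd htp (hh t ht)
      obtain ⟨i, hi, rfl⟩ := List.getElem_of_mem htp
      obtain ⟨T, hT1, hT2, hT3, hT4, u, hu, b, hb, hbs, hadj⟩ :=
        exists_approach (Walk.cons hac w) q (hpq _ htp) hz
      obtain ⟨j, hj, rfl⟩ := List.getElem_of_mem hb
      refine ⟨T, i, j, hi, hj, hT2, hT3, ?_, hT1, hT4, ⟨u, hu, hadj⟩, hbs⟩
      intro s hs hsp
      have := hT3 s hs
      rw [Walk.support_cons, List.mem_cons] at this
      rcases this with e | e
      · exact e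
      · exact absurd hsp (hh s e)

/-- An injective sequence of length more than `(n - 1)²` has a monotone subsequence of length `n`. -/
theorem exists_monotone {K n : ℕ} (f : Fin K → ℕ) (hf : Function.Injective f) (hK : n * n ≤ K) :
    ∃ g : Fin n → Fin K, StrictMono g ∧ (StrictMono (f ∘ g) ∨ StrictAnti (f ∘ g)) := by
  classical
  rcases Nat.eq_zero_or_pos n with rfl | hn
  · exact ⟨Fin.elim0, fun i => i.elim0, Or.inl fun i => i.elim0⟩
  -- longest increasing or decreasing chains ending at an index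
  have main : ∀ (r : ℕ → ℕ → Prop), (∀ x y z, r x y → r y z → r x z) → ∃ L : Fin K → ℕ,
      (∀ i j, i < j → r (f i) (f j) → L i < L j) ∧
      ∀ i, 1 ≤ L i ∧ ∃ s : Finset (Fin K), L i = s.card ∧ i ∈ s ∧
        ∀ a ∈ s, ∀ b ∈ s, a < b → r (f a) (f b) := by
    intro r htrans
    let C : Fin K → Finset (Finset (Fin K)) := fun i => Finset.univ.filter fun s =>
      i ∈ s ∧ (∀ a ∈ s, a ≤ i) ∧ ∀ a ∈ s, ∀ b ∈ s, a < b → r (f a) (f b)
    have hCi : ∀ i, {i} ∈ C i := fun i => by
      simp [C]
    have hCne : ∀ i, (C i).Nonempty := fun i => ⟨_, hCi i⟩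
    choose s hs hmax using fun i => (C i).exists_max_image Finset.card (hCne i)
    have hs' : ∀ i, i ∈ s i ∧ (∀ a ∈ s i, a ≤ i) ∧
        ∀ a ∈ s i, ∀ b ∈ s i, a < b → r (f a) (f b) := fun i => (Finset.mem_filter.1 (hs i)).2
    refine ⟨fun i => (s i).card, fun i j hij hr => ?_, fun i => ⟨?_, s i, rfl, (hs' i).1, (hs' i).2.2⟩⟩
    · obtain ⟨h1, h2, h3⟩ := hs' i
      have hj : j ∉ s i := fun h => absurd (h2 j h) (not_le.2 hij)
      have htr : ∀ a ∈ s i, r (f a) (f j) := fun a ha => by
        rcases (h2 a ha).eq_or_lt with e | e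
        · exact e ▸ hr
        · exact htrans _ _ _ (h3 a ha i h1 e) hr
      have hmem : insert j (s i) ∈ C j := by
        refine Finset.mem_filter.2 ⟨Finset.mem_univ _, Finset.mem_insert_self _ _, ?_, ?_⟩
        · intro a ha
          rcases Finset.mem_insert.1 ha with rfl | ha
          · exact le_rfl
          · exact ((h2 a ha).trans_lt hij).le
        · intro a ha b hb hab
          rcases Finset.mem_insert.1 ha with ea | ha
          · rw [ea] at hab
            rcases Finset.mem_insert.1 hb with eb | hb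
            · exact absurd hab (eb ▸ lt_irrefl _)
            · exact absurd (hab.trans_le (h2 b hb)) (not_lt.2 hij.le)
          · rcases Finset.mem_insert.1 hb with eb | hb
            · rw [eb]; exact htr a ha
            · exact h3 a ha b hb hab
      have hle := hmax j _ hmem
      simp only [Finset.card_insert_of_notMem hj] at hle
      show (s i).card < (s j).card
      omega
    · exact Finset.card_pos.2 ⟨i, (hs' i).1⟩
  obtain ⟨Li, hi1, hi2⟩ := main (· < ·) fun _ _ _ => lt_trans
  obtain ⟨Ld, hd1, hd2⟩ := main (fun x y => y < x) fun _ _ _ h h' => lt_trans h' h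
  by_cases hbig : ∃ i, n ≤ Li i ∨ n ≤ Ld i
  · obtain ⟨i, h | h⟩ := hbig
    · obtain ⟨-, s, hs, -, hs'⟩ := hi2 i
      obtain ⟨t, hts, htc⟩ := Finset.exists_subset_card_eq (hs ▸ h)
      refine ⟨t.orderEmbOfFin htc, (t.orderEmbOfFin htc).strictMono, Or.inl fun a b hab => ?_⟩
      exact hs' _ (hts (t.orderEmbOfFin_mem htc a)) _ (hts (t.orderEmbOfFin_mem htc b))
        ((t.orderEmbOfFin htc).strictMono hab)
    · obtain ⟨-, s, hs, -, hs'⟩ := hd2 i
      obtain ⟨t, hts, htc⟩ := Finset.exists_subset_card_eq (hs ▸ h)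
      refine ⟨t.orderEmbOfFin htc, (t.orderEmbOfFin htc).strictMono, Or.inr fun a b hab => ?_⟩
      exact hs' _ (hts (t.orderEmbOfFin_mem htc a)) _ (hts (t.orderEmbOfFin_mem htc b))
        ((t.orderEmbOfFin htc).strictMono hab)
  · exfalso
    push Not at hbig
    have hinj : Function.Injective fun i => (Li i, Ld i) := by
      intro i j e
      simp only [Prod.mk.injEq] at e
      rcases lt_trichotomy i j with h | h | h
      · rcases (hf.ne h.ne).lt_or_gt with h' | h'
        · have := hi1 i j h h'; omega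
        · have := hd1 i j h h'; omega
      · exact h
      · rcases (hf.ne h.ne).lt_or_gt with h' | h'
        · have := hi1 j i h h'; omega
        · have := hd1 j i h h'; omega
    have hcard := Finset.card_le_card_of_injOn (fun i => (Li i, Ld i))
      (s := (Finset.univ : Finset (Fin K))) (t := Finset.Ico 1 n ×ˢ Finset.Ico 1 n)
      (fun i _ => by
        have := hbig i
        have := (hi2 i).1
        have := (hd2 i).1
        simp only [Finset.coe_product, Finset.coe_Ico, Set.mem_prod, Set.mem_Ico]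
        omega) hinj.injOn
    rw [Finset.card_univ, Fintype.card_fin, Finset.card_product, Nat.card_Ico] at hcard
    have : (n - 1) * (n - 1) < n * n := by
      have : n - 1 < n := by omega
      exact Nat.mul_lt_mul'' this this
    omega

/-- Disjoint connected sets meeting two disjoint paths, in large number, give a ladder minor. -/
theorem hasMinor_of_meet {n K : ℕ} (hK : n * n ≤ K) {p q : List V} (hp : IsPathList G p)
    (hq : IsPathList G q) (hpq : ∀ t ∈ p, t ∉ q) (S : Fin K → Set V)
    (hS : ∀ i, ConnIn G (S i)) (hd : ∀ i j, i ≠ j → Disjoint (S i) (S j))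
    (hmp : ∀ i, ∃ t ∈ S i, t ∈ p) (hmq : ∀ i, ∃ t ∈ S i, t ∈ q) :
    HasMinor G ((pathGraph 2).boxProd (pathGraph n)) := by
  have hrung : ∀ i, ∃ (T : Set V) (a b : ℕ) (ha : a < p.length) (hb : b < q.length),
      ConnIn G T ∧ T ⊆ S i ∧ (∀ t ∈ T, t ∈ p → t = p[a]) ∧ p[a] ∈ T ∧ (∀ t ∈ T, t ∉ q) ∧
        (∃ t ∈ T, G.Adj t q[b]) ∧ q[b] ∈ S i := fun i => by
    obtain ⟨x, hx, hxp⟩ := hmp i
    obtain ⟨z, hz, hzq⟩ := hmq i
    obtain ⟨w, hw⟩ := hS i x hx z hz
    obtain ⟨T, a, b, ha, hb, h1, h2, h3, h4, h5, h6, h7⟩ :=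
      exists_rung w p q hpq ⟨x, w.start_mem_support, hxp⟩ hzq
    exact ⟨T, a, b, ha, hb, h1, fun t ht => hw t (h2 t ht), h3, h4, h5, h6, hw _ h7⟩
  choose T a b ha hb hT hTS hTp haT hTq hadj hbS using hrung
  have ainj : Function.Injective a := fun i j e => by
    by_contra hij
    have h2 := hTS j (haT j)
    simp only [← e] at h2
    exact Set.disjoint_left.1 (hd i j hij) (hTS i (haT i)) h2
  have binj : Function.Injective b := fun i j e => by
    by_contra hij
    have h2 := hbS j
    simp only [← e] at h2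
    exact Set.disjoint_left.1 (hd i j hij) (hbS i) h2
  -- sort by the position on `p`
  classical
  let σ := Tuple.sort a
  have hamono : StrictMono (a ∘ σ) :=
    (Tuple.monotone_sort a).strictMono_of_injective (ainj.comp σ.injective)
  obtain ⟨g, hg, hg'⟩ := exists_monotone (b ∘ σ) (binj.comp σ.injective) hK
  rcases hg' with hinc | hdec
  · exact Rungs.hasMinor (U := Set.univ)
      { a := fun i => a (σ (g i)), b := fun i => b (σ (g i))
        ha := fun i => ha _, hb := fun i => hb _
        amono := hamono.comp hg, bmono := hinc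
        T := fun i => T (σ (g i)), sub := fun i => Set.subset_univ _, conn := fun i => hT _
        tp := fun i => hTp _, mem := fun i => haT _, tq := fun i => hTq _, adj := fun i => hadj _
        disj := fun i j hij => (hd _ _ fun e => hij (hg.injective (σ.injective e))).mono
          (hTS _) (hTS _) } hp hq hpq
  · exact Rungs.hasMinor (U := Set.univ)
      { a := fun i => a (σ (g i)), b := fun i => q.length - 1 - b (σ (g i))
        ha := fun i => ha _
        hb := fun i => by have := hb (σ (g i)); simp only [List.length_reverse]; omega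
        amono := hamono.comp hg
        bmono := fun i j hij => by
          have h1 : b (σ (g j)) < b (σ (g i)) := hdec hij
          have := hb (σ (g i))
          show q.length - 1 - b (σ (g i)) < q.length - 1 - b (σ (g j))
          omega
        T := fun i => T (σ (g i)), sub := fun i => Set.subset_univ _, conn := fun i => hT _
        tp := fun i => hTp _, mem := fun i => haT _
        tq := fun i t ht => by simpa using hTq _ t ht
        adj := fun i => by
          obtain ⟨t, ht, h⟩ := hadj (σ (g i))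
          refine ⟨t, ht, ?_⟩
          have := hb (σ (g i))
          simp only [List.getElem_reverse,
            show q.length - 1 - (q.length - 1 - b (σ (g i))) = b (σ (g i)) by omega]
          exact h
        disj := fun i j hij => (hd _ _ fun e => hij (hg.injective (σ.injective e))).mono
          (hTS _) (hTS _) } hp hq.reverse (fun t ht => by simpa using hpq t ht)

end Vale.Agent.P235
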